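import Vale.Agent.P297Z.Sh.Cin

/-!
# P297: frames and their tautological algebras
-/

set_option linter.all false

noncomputable section

namespace Vale.Agent.P297Z.Sh

attribute [local simp] Ct.assoc Ct.lift_comp Ct.fst_lift Ct.snd_lift Ct.id_comp Ct.comp_id
  Ct.map_def Ct.lift_eta Ct.lift_eta'

variable {S V W Y Z : Spc} {k : Type} [CommRing k] {ι κ : Type}

/-- the class of the locus where two maps agree -/
def dd (s s' : Mor W S) : K0 W := pullK (Mor.lift s s') (delta S)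

/-- the graph -/
def gr (s : Mor W S) : Mor W (W.prod S) := Mor.lift (Mor.id W) s

/-- the class of the graph -/
def dS (s : Mor W S) : K0 (W.prod S) := pullK (s.map (Mor.id S)) (delta S)

/-- the facts on the diagonal -/
structure DG (S : Spc) where
  var : S.IsVar 2
  om : K0 S
  omc : IsCls om 1
  Om : K0 S
  d1 : ∀ {W : Spc} {e : ℕ}, W.IsVar e → ∀ (s : Mor W S) (x : K0 (W.prod S)),
    pK W S (dS s * x) = pullK (gr s) x
  d2 : ∀ {W : Spc} {e : ℕ}, W.IsVar e → ∀ (s : Mor W S) (x : K0 (W.prod S)),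
    pK W S (dualK _ (dS s) * x) = pullK s om * pullK (gr s) x
  c1 : gc ℂ 1 (delta S) = 0
  c2 : ∀ {W : Spc} {e : ℕ}, W.IsVar e → ∀ s : Mor W S,
    (-gc ℂ 2 (dS s)) • fund ℂ (W.prod S) (e + 2) = GH.push (gr s) (fund ℂ W e)
  ci : ∀ i, gc ℂ (i + 2) (delta S) = gc ℂ 2 (delta S) * GA.pull (Mor.fst S S) (gc ℂ i (-Om))

theorem pull_dd (f : Mor V W) (s s' : Mor W S) :
    pullK f (dd s s') = dd (s.comp f) (s'.comp f) := by
  rw [dd, dd, ← pullK_comp, Ct.lift_comp]

theorem dS_eq (s : Mor W S) : dS s = dd (s.comp (Mor.fst W S)) (Mor.snd W S) := rfl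

theorem gr_dS (s s' : Mor W S) : pullK (gr s') (dS s) = dd s s' := by
  rw [dS_eq, pull_dd]
  simp [gr]

theorem map_dS (f : Mor V W) (s : Mor W S) :
    pullK (f.map (Mor.id S)) (dS s) = dS (s.comp f) := by
  rw [dS_eq, dS_eq, pull_dd]
  simp

theorem gr_fst (s : Mor W S) (x : K0 W) : pullK (gr s) (pullK (Mor.fst W S) x) = x := by
  rw [← pullK_comp, gr, Ct.fst_lift, pullK_id]

theorem gr_snd (s : Mor W S) (x : K0 S) : pullK (gr s) (pullK (Mor.snd W S) x) = pullK s x := by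
  rw [← pullK_comp, gr, Ct.snd_lift]

theorem map_snd (f : Mor V W) (x : K0 S) :
    pullK (f.map (Mor.id S)) (pullK (Mor.snd W S) x) = pullK (Mor.snd V S) x := by
  rw [← pullK_comp]
  simp

theorem map_fst (f : Mor V W) (x : K0 W) :
    pullK (f.map (Mor.id S)) (pullK (Mor.fst W S) x) = pullK (Mor.fst V S) (pullK f x) := by
  rw [← pullK_comp, ← pullK_comp]
  simp

theorem map_map (g : Mor W Y) (f : Mor V W) (x : K0 (Y.prod S)) :
    pullK (f.map (Mor.id S)) (pullK (g.map (Mor.id S)) x) =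
      pullK ((g.comp f).map (Mor.id S)) x := by
  rw [← pullK_comp]
  simp

theorem pull_gr (f : Mor V W) (s : Mor W S) (x : K0 (W.prod S)) :
    pullK f (pullK (gr s) x) = pullK (gr (s.comp f)) (pullK (f.map (Mor.id S)) x) := by
  rw [← pullK_comp, ← pullK_comp]
  simp [gr]

namespace DG

variable (D : DG S)
include D

theorem dd_symm (s s' : Mor W S) : dd s s' = dd s' s := by
  have h := D.d1 (Nd.var_prod D.var D.var) (Mor.fst S S) (dS (Mor.snd S S))
  rw [mul_comm, D.d1 (Nd.var_prod D.var D.var), gr_dS, gr_dS] at h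
  have := congrArg (pullK (Mor.lift s s')) h
  rwa [pull_dd, pull_dd, Ct.fst_lift, Ct.snd_lift] at this

theorem dd_one (s s' : Mor W S) : gc ℂ 1 (dd s s') = 0 := by
  rw [dd, ← pull_gc, D.c1, map_zero]

theorem dd_add (s s' : Mor W S) (i : ℕ) :
    gc ℂ (i + 2) (dd s s') = gc ℂ 2 (dd s s') * GA.pull s (gc ℂ i (-D.Om)) := by
  rw [dd, ← pull_gc, D.ci, map_mul, pull_gc, ← GA.pull_comp, Ct.fst_lift]

end DG

/-- two classes on `W × S`, two line bundles, and maps to `S` -/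
@[ext] structure Frame (S W : Spc) (ι : Type) where
  E : Bool → K0 (W.prod S)
  h : Bool → K0 W
  s : ι → Mor W S

namespace Frame

/-- the pull-back of a frame -/
def pull (Φ : Frame S W ι) (f : Mor V W) : Frame S V ι :=
  ⟨fun a => pullK (f.map (Mor.id S)) (Φ.E a), fun a => pullK f (Φ.h a), fun j => (Φ.s j).comp f⟩

/-- one more slot -/
def more (Φ : Frame S W ι) (σ : Mor W S) : Frame S W (Option ι) :=
  ⟨Φ.E, Φ.h, fun j => j.elim σ Φ.s⟩

/-- the generating classes -/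
inductive Gen (L : Set (K0 S)) (Φ : Frame S W ι) : K0 W → Prop
  | h (a : Bool) : Gen L Φ (Φ.h a)
  | E (a : Bool) (j : ι) : Gen L Φ (pullK (gr (Φ.s j)) (Φ.E a))
  | M (j : ι) (M : K0 S) (hM : M ∈ L) : Gen L Φ (pullK (Φ.s j) M)
  | d (j j' : ι) (hj : j ≠ j') : Gen L Φ (dd (Φ.s j) (Φ.s j'))
  | p (a : Bool) (M : K0 S) (hM : M ∈ L) :
      Gen L Φ (pK W S (dualK _ (Φ.E a) * pullK (Mor.snd W S) M))
  | q (a b : Bool) (hab : a ≠ b) : Gen L Φ (pK W S (dualK _ (Φ.E a) * Φ.E b))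

variable (k) in
/-- the tautological algebra -/
def Taut (L : Set (K0 S)) (Φ : Frame S W ι) : Subalgebra k (GA k W) :=
  Algebra.adjoin k {x | ∃ i g, Gen L Φ g ∧ x = gc k i g}

variable {L : Set (K0 S)}

theorem Gen.cin {Φ : Frame S W ι} {g : K0 W} (h : Gen L Φ g) : CIn (Taut k L Φ) g :=
  fun i => Algebra.subset_adjoin ⟨i, g, h, rfl⟩

theorem taut_le {Φ : Frame S W ι} {T : Subalgebra k (GA k W)} (h : ∀ g, Gen L Φ g → CIn T g) :
    Taut k L Φ ≤ T := Algebra.adjoin_le (by rintro _ ⟨i, g, hg, rfl⟩; exact h g hg i)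

section pull

variable {n m : ℕ} (hV : V.IsVar m) (hW : W.IsVar n) (hS : S.IsProj) (Φ : Frame S W ι) (f : Mor V W)
include hV hW hS

theorem pull_p (a : Bool) (M : K0 S) :
    pullK f (pK W S (dualK _ (Φ.E a) * pullK (Mor.snd W S) M)) =
      pK V S (dualK _ ((Φ.pull f).E a) * pullK (Mor.snd V S) M) := by
  rw [Nd.pK_pull hV hW hS, map_mul, pullK_dualK, map_snd]; rfl

theorem pull_q (a b : Bool) : pullK f (pK W S (dualK _ (Φ.E a) * Φ.E b)) =
    pK V S (dualK _ ((Φ.pull f).E a) * (Φ.pull f).E b) := by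
  rw [Nd.pK_pull hV hW hS, map_mul, pullK_dualK]; rfl

theorem gen_pull {g : K0 W} (h : Gen L Φ g) : Gen L (Φ.pull f) (pullK f g) := by
  cases h with
  | h a => exact Gen.h (Φ := Φ.pull f) a
  | E a j => rw [pull_gr]; exact Gen.E (Φ := Φ.pull f) a j
  | M j M hM => rw [← pullK_comp]; exact Gen.M (Φ := Φ.pull f) j M hM
  | d j j' hj => rw [pull_dd]; exact Gen.d (Φ := Φ.pull f) j j' hj
  | p a M hM => rw [pull_p hV hW hS]; exact Gen.p a M hM
  | q a b hab => rw [pull_q hV hW hS]; exact Gen.q a b hab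

theorem exists_gen {g : K0 V} (h : Gen L (Φ.pull f) g) : ∃ g', Gen L Φ g' ∧ g = pullK f g' := by
  cases h with
  | h a => exact ⟨_, Gen.h a, rfl⟩
  | E a j => exact ⟨_, Gen.E a j, (pull_gr _ _ _).symm⟩
  | M j M hM => exact ⟨_, Gen.M j M hM, pullK_comp _ _ _⟩
  | d j j' hj => exact ⟨_, Gen.d j j' hj, (pull_dd _ _ _).symm⟩
  | p a M hM => exact ⟨_, Gen.p a M hM, (pull_p hV hW hS Φ f a M).symm⟩
  | q a b hab => exact ⟨_, Gen.q a b hab, (pull_q hV hW hS Φ f a b).symm⟩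

theorem taut_pull : Taut k L (Φ.pull f) = (Taut k L Φ).map (GA.pull f) := by
  refine le_antisymm (taut_le fun g hg => ?_) ?_
  · obtain ⟨g', hg', rfl⟩ := exists_gen hV hW hS Φ f hg
    exact hg'.cin.pull f fun t ht => ⟨t, ht, rfl⟩
  · rw [Subalgebra.map_le]
    exact taut_le fun g hg i => by
      rw [Subalgebra.mem_comap, pull_gc]
      exact (gen_pull hV hW hS Φ f hg).cin i

theorem pull_mem {μ : GA k W} (h : μ ∈ Taut k L Φ) : GA.pull f μ ∈ Taut k L (Φ.pull f) := by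
  rw [taut_pull hV hW hS]
  exact ⟨μ, h, rfl⟩

end pull

/-- the algebraic part of the recursion -/
theorem step (D : DG S) (hL : ∀ M ∈ L, IsCls M 1) (hom : D.om ∈ L) {n : ℕ} (hZ : Z.IsVar n)
    (Φ' : Frame S Z ι) (Φ : Frame S Z (Option ι)) (c : Bool) {l : K0 Z} (hl : IsCls l 1)
    (hs : ∀ j, Φ'.s j = Φ.s (some j)) (hh : Φ'.h = Φ.h) (hE : ∀ a, a ≠ c → Φ'.E a = Φ.E a)
    (hc : Φ'.E c = Φ.E c - pullK (Mor.fst Z S) l * dS (Φ.s none))
    {T : Subalgebra k (GA k Z)} (hT : Taut k L Φ ≤ T) (hl' : gc k 1 l ∈ T) : Taut k L Φ' ≤ T := by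
  have cl : CIn T l := CIn.of_line hl hl'
  have cg : ∀ {g}, Gen L Φ g → CIn T g := fun h => h.cin.le hT
  have hp : ∀ x, CIn T (pK Z S (dualK _ (Φ.E c) * x)) → CIn T (pullK (gr (Φ.s none)) x) →
      CIn T (pK Z S (dualK _ (Φ'.E c) * x)) := fun x h1 h2 => by
    rw [hc, map_sub, map_mul (dualK _), sub_mul, map_sub, ← pullK_dualK, mul_assoc,
      Nd.pK_mul hZ D.var.proj, D.d2 hZ]
    exact h1.sub (CIn.twist hl.dual cl.dual
      (CIn.twist (D.omc.pull _) (cg (Gen.M none _ hom)) h2))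
  refine taut_le fun g hg => ?_
  cases hg with
  | h a => rw [hh]; exact cg (Gen.h a)
  | E a j =>
    by_cases ha : a = c
    · subst ha
      rw [hc, map_sub, map_mul, gr_fst, gr_dS, hs]
      exact (cg (Gen.E a _)).sub (CIn.twist hl cl (cg (Gen.d none (some j) (by simp))))
    · rw [hE a ha, hs]; exact cg (Gen.E a _)
  | M j M hM => rw [hs]; exact cg (Gen.M _ M hM)
  | d j j' hj => rw [hs, hs]; exact cg (Gen.d _ _ (by simpa using hj))
  | p a M hM =>
    by_cases ha : a = c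
    · subst ha
      refine hp _ (cg (Gen.p a M hM)) ?_
      rw [gr_snd]; exact cg (Gen.M none M hM)
    · rw [hE a ha]; exact cg (Gen.p a M hM)
  | q a b hab =>
    by_cases ha : a = c
    · subst ha
      rw [hE b hab.symm]
      exact hp _ (cg (Gen.q a b hab)) (cg (Gen.E b none))
    · obtain rfl : b = c := by cases a <;> cases b <;> cases c <;> simp_all
      rw [hE a ha, hc, mul_sub, map_sub, mul_left_comm, Nd.pK_mul hZ D.var.proj,
        mul_comm _ (dS _), D.d1 hZ, pullK_dualK]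
      exact (cg (Gen.q a b hab)).sub (CIn.twist hl cl (cg (Gen.E a none)).dual)

/-- the algebraic part of the start of the recursion -/
theorem base (hS : S.IsProj) {n : ℕ} (hZ : Z.IsVar n) (Φ' Φ : Frame S Z ι) (c : Bool) {l : K0 Z}
    (hl : IsCls l 1) (hs : Φ'.s = Φ.s) (hh : ∀ a, a ≠ c → Φ'.h a = Φ.h a) (hh' : Φ'.h c = l)
    (hE : ∀ a, a ≠ c → Φ'.E a = Φ.E a) (hc : Φ'.E c = pullK (Mor.fst Z S) l * Φ.E c)
    {T : Subalgebra k (GA k Z)} (hT : Taut k L Φ ≤ T) (hl' : gc k 1 l ∈ T) : Taut k L Φ' ≤ T := by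
  have cl : CIn T l := CIn.of_line hl hl'
  have cg : ∀ {g}, Gen L Φ g → CIn T g := fun h => h.cin.le hT
  have hp : ∀ x, CIn T (pK Z S (dualK _ (Φ.E c) * x)) → CIn T (pK Z S (dualK _ (Φ'.E c) * x)) :=
    fun x h1 => by
      rw [hc, map_mul (dualK _), ← pullK_dualK, mul_assoc, Nd.pK_mul hZ hS]
      exact CIn.twist hl.dual cl.dual h1
  refine taut_le fun g hg => ?_
  cases hg with
  | h a =>
    by_cases ha : a = c
    · rw [ha, hh']; exact cl
    · rw [hh a ha]; exact cg (Gen.h a)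
  | E a j =>
    by_cases ha : a = c
    · subst ha
      rw [hc, map_mul, gr_fst, hs]
      exact CIn.twist hl cl (cg (Gen.E a j))
    · rw [hE a ha, hs]; exact cg (Gen.E a _)
  | M j M hM => rw [hs]; exact cg (Gen.M _ M hM)
  | d j j' hj => rw [hs]; exact cg (Gen.d _ _ hj)
  | p a M hM =>
    by_cases ha : a = c
    · subst ha
      exact hp _ (cg (Gen.p a M hM))
    · rw [hE a ha]; exact cg (Gen.p a M hM)
  | q a b hab =>
    by_cases ha : a = c
    · subst ha
      rw [hE b hab.symm]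
      exact hp _ (cg (Gen.q a b hab))
    · obtain rfl : b = c := by cases a <;> cases b <;> cases c <;> simp_all
      rw [hE a ha, hc, mul_left_comm, Nd.pK_mul hZ hS]
      exact CIn.twist hl cl (cg (Gen.q a b hab))

end Frame

end Vale.Agent.P297Z.Sh
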