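import Vale.Agent.P297Z.Sh.Cin
import Vale.Agent.P297Z.Top.Fin

/-!
# P297: the contribution of a fixed locus in the graded theory
-/

set_option linter.all false

noncomputable section

namespace Vale.Agent.P297Z.Sh

open PowerSeries

variable {S W : Spc} {k : Type} [CommRing k]

theorem var_pow (hS : S.IsVar 2) : ∀ n, (S.pow n).IsVar (2 * n)
  | 0 => Nd.var_pt
  | n + 1 => Nd.var_prod (var_pow hS n) hS

variable (k) in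
/-- the leading part of `kappa` -/
def kA (E₁ E₂ : K0 W) : (GA k W)⟦X⟧ :=
  C (gc k 1 E₁) * X * (1 + C (gc k 1 E₂) * X) + C (gc k 2 E₁ + gc k 2 E₂) * X ^ 2

theorem adm_kappa (E₁ E₂ : K0 W) : Adm (kappa E₁ E₂) :=
  ((Adm.mono1 (Nd.cc_mem_FF 1 _)).mul (Adm.one.add (Adm.mono1 (Nd.cc_mem_FF 1 _)))).add
    (Adm.mono (add_mem (Nd.cc_mem_FF 2 _) (Nd.cc_mem_FF 2 _)))

theorem ld_kappa (E₁ E₂ : K0 W) : ld k (kappa E₁ E₂) = kA k E₁ E₂ := by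
  have h1 := Adm.mono1 (Nd.cc_mem_FF 1 E₁)
  have h2 := Adm.mono1 (Nd.cc_mem_FF 1 E₂)
  rw [kappa, ld_add (h1.mul (Adm.one.add h2))
    (Adm.mono (add_mem (Nd.cc_mem_FF 2 _) (Nd.cc_mem_FF 2 _))), ld_mul h1 (Adm.one.add h2),
    ld_add Adm.one h2, ld_one, ld_mono1, ld_mono1, ld_mono,
    amk_add (Nd.cc_mem_FF 2 _) (Nd.cc_mem_FF 2 _)]
  rfl

variable {L₁ M₁ L₂ M₂ : K0 S} {v₁ v₂ n₁ n₂ o₁ o₂ : ℕ}
  (T₁ : Tower S L₁ M₁ v₁ n₁ o₁) (T₂ : Tower S L₂ M₂ v₂ n₂ o₂)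

variable (k) in
/-- the product of the top Chern classes of the obstruction bundles -/
def topA : GA k (Fx T₁ T₂) := GA.pull (Mor.fst _ _) (gc k (o₁ + n₁) (T₁.obv n₁)) *
  GA.pull (Mor.snd _ _) (gc k (o₂ + n₂) (T₂.obv n₂))

variable (k) in
/-- the leading part of `core` -/
def coreA : (GA k (Fx T₁ T₂))⟦X⟧ :=
  C (topA k T₁ T₂) * X ^ (o₁ + n₁ + (o₂ + n₂)) * cA k (bP T₁ T₂) * rescale (-1) (cA k (bM T₁ T₂))

theorem top_mem : pullK (Mor.fst _ _) (cc (o₁ + n₁) (T₁.obv n₁)) *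
    pullK (Mor.snd _ _) (cc (o₂ + n₂) (T₂.obv n₂)) ∈ FF (Fx T₁ T₂) (o₁ + n₁ + (o₂ + n₂)) :=
  Gd.FF_mul (Gd.FF_pull _ (Nd.cc_mem_FF _ _)) (Gd.FF_pull _ (Nd.cc_mem_FF _ _))

theorem adm_core : Adm (core T₁ T₂) :=
  ((Adm.mono (top_mem T₁ T₂)).mul (Adm.cT _)).mul ((Adm.cT _).rescale _)

theorem ld_core : ld k (core T₁ T₂) = coreA k T₁ T₂ := by
  rw [core, ld_mul ((Adm.mono (top_mem T₁ T₂)).mul (Adm.cT _)) ((Adm.cT _).rescale _),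
    ld_mul (Adm.mono (top_mem T₁ T₂)) (Adm.cT _), ld_mono, ld_rescale_neg (Adm.cT _),
    amk_mul (Gd.FF_pull _ (Nd.cc_mem_FF _ _)) (Gd.FF_pull _ (Nd.cc_mem_FF _ _)),
    ← GA.pull_amk _ (Nd.cc_mem_FF _ _), ← GA.pull_amk _ (Nd.cc_mem_FF _ _)]
  rfl

variable (k) in
/-- the integrand without the insertions -/
def bodyA (m : ℕ) : GA k (Wk (Fx T₁ T₂) S m) :=
  coeff (v₁ + 2 * n₁ + (v₂ + 2 * n₂) + 2 * m + 2)
    (map (GA.pullR k (Wk.base _ S m)) (coreA k T₁ T₂) *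
      (∏ i, kA k (Wk.at m i (E1 T₁ T₂)) (Wk.at m i (E2 T₁ T₂))) * X ^ m)

/-- the contribution in the graded theory -/
def GamA {m : ℕ} (α : Fin m → GA k S) : GH k (S.prod S) :=
  ((-1 : ℤ) ^ (rk _ (bM T₁ T₂)).natAbs) • GH.push (Mor.snd _ _ : Mor (Wk (Fx T₁ T₂) S m) _)
    (((∏ i, GA.pull (Wk.sl _ S m (.inl i)) (α i)) * bodyA k T₁ T₂ m) •
      fund k _ (v₁ + 2 * n₁ + (v₂ + 2 * n₂) + 2 * m + (2 + 2)))

theorem var_Fx : (Fx T₁ T₂).IsVar (v₁ + 2 * n₁ + (v₂ + 2 * n₂)) :=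
  Nd.var_prod (T₁.var n₁ le_rfl) (T₂.var n₂ le_rfl)

theorem var_Wk (hS : S.IsVar 2) (m : ℕ) :
    (Wk (Fx T₁ T₂) S m).IsVar (v₁ + 2 * n₁ + (v₂ + 2 * n₂) + 2 * m + (2 + 2)) :=
  Nd.var_prod (Nd.var_prod (var_Fx T₁ T₂) (var_pow hS m)) (Nd.var_prod hS hS)

theorem hmk_Gam (hS : S.IsVar 2) {m : ℕ} {w : Fin m → K0 S} (hw : ∀ i, w i ∈ FF S 1) :
    Gam T₁ T₂ m w ∈ Fd (S.prod S) (2 + 1) ∧
      hmk k 2 (Gam T₁ T₂ m w) = GamA T₁ T₂ fun i => amk k 1 (w i) := by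
  have hW := var_Wk T₁ T₂ hS m
  have hP := Nd.var_prod hS hS
  have a1 := (adm_core T₁ T₂).map (Wk.base _ S m)
  have a2 := Adm.prod Finset.univ fun (i : Fin m ⊕ Bool) _ =>
    adm_kappa (Wk.at m i (E1 T₁ T₂)) (Wk.at m i (E2 T₁ T₂))
  have a0 := fun (i : Fin m) (_ : i ∈ Finset.univ) =>
    Adm.mono1 (Gd.FF_pull (Wk.sl (Fx T₁ T₂) S m (.inl i)) (hw i))
  have a3 := Adm.prod Finset.univ a0
  have a4 := (a1.mul a2).mul a3 (v₁ + 2 * n₁ + (v₂ + 2 * n₂) + 2 * m + 2)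
  have h1 := act_oG_mem hW a4 (by omega)
  have h2 := amk_fund (k := k) hW a4
  have e : v₁ + 2 * n₁ + (v₂ + 2 * n₂) + 2 * m + (2 + 2) -
    (v₁ + 2 * n₁ + (v₂ + 2 * n₂) + 2 * m + 2) = 2 := by omega
  rw [e] at h1
  rw [if_pos (by omega), e] at h2
  have h3 := Nd.fstar_Fd hW.proj hP.proj (Mor.snd _ _) h1
  refine ⟨zsmul_mem h3 _, ?_⟩
  rw [Gam, hmk_zsmul h3, ← GH.push_hmk hW.proj hP.proj _ h1, ← h2, ← coeff_ld,
    ld_mul (a1.mul a2) a3, ld_mul a1 a2, ld_map (adm_core T₁ T₂), ld_core,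
    ld_prod _ fun i _ => adm_kappa _ _, ld_prod _ a0, GamA, bodyA]
  congr 3
  simp only [ld_kappa, ld_mono1]
  rw [Finset.prod_mul_distrib, Finset.prod_const, Finset.card_univ, Fintype.card_fin,
    ← map_prod, mul_left_comm, coeff_C_mul]
  congr 1
  exact Finset.prod_congr rfl fun i _ => (GA.pull_amk _ (hw i)).symm

theorem GamF_eq (hS : S.IsVar 2) {m : ℕ} {ι : Type} [Fintype ι] (a : ι → ℂ) {w : ι → K0 S}
    (hw : ∀ i, w i ∈ FF S 1) (Φ : G (S.prod S) →+ ℂ) (hΦ : ∀ g ∈ Fd (S.prod S) 2, Φ g = 0) :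
    GamF T₁ T₂ m a w Φ =
      GH.fn (k := ℂ) 2 Φ hΦ (GamA T₁ T₂ fun _ : Fin m => ∑ i, a i • amk ℂ 1 (w i)) := by
  classical
  have hP := Nd.var_prod hS hS
  have h1 : ∀ f : Fin m → ι, Φ (Gam T₁ T₂ m fun j => w (f j)) =
      GH.fn (k := ℂ) 2 Φ hΦ (GamA T₁ T₂ fun j => amk ℂ 1 (w (f j))) := fun f => by
    obtain ⟨h1, h2⟩ := hmk_Gam (k := ℂ) T₁ T₂ hS fun j => hw (f j)
    rw [← h2, GH.fn_hmk hP.fr h1, if_pos rfl]
  simp only [GamF, h1, GamA, map_sum, map_smul, map_zsmul]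
  rw [Finset.prod_univ_sum, Fintype.piFinset_univ, Finset.sum_mul, Finset.sum_smul, map_sum,
    map_sum, Finset.smul_sum]
  refine Finset.sum_congr rfl fun f _ => ?_
  rw [Finset.prod_smul, smul_mul_assoc, smul_assoc, LinearMap.map_smul, LinearMap.map_smul,
    smul_eq_mul, mul_smul_comm]

/-! ### the two functionals -/

theorem dK_mem (z z' : S.Pt) : dK S z - dK S z' ∈ FF S 2 :=
  sub_mem (neg_mem (Nd.cc_mem_FF 2 _)) (neg_mem (Nd.cc_mem_FF 2 _))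

theorem kill_Phi (hS : S.IsVar 2) (τ : G S →+ ℂ) (z z' : S.Pt) :
    ∀ g ∈ Fd (S.prod S) 2, Phi S τ z z' g = 0 := fun g hg => by
  change τ (fstar _ (kact _ _ g)) = 0
  rw [Gd.FF_act_zero (Nd.var_prod hS hS).fr (Gd.FF_pull _ (dK_mem z z')) hg le_rfl, map_zero,
    map_zero]

theorem psi_mem {w : K0 S} (hw : w ∈ FF S 1) :
    pullK (Mor.fst S S) w * pullK (Mor.snd S S) w ∈ FF (S.prod S) 2 :=
  Gd.FF_mul (i := 1) (j := 1) (Gd.FF_pull _ hw) (Gd.FF_pull _ hw)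

theorem kill_Psi (hS : S.IsVar 2) {w : K0 S} (hw : w ∈ FF S 1) :
    ∀ g ∈ Fd (S.prod S) 2, Psi S w g = 0 := fun g hg => by
  change ((chiG _ (kact _ _ g) : ℤ) : ℂ) = 0
  rw [Gd.FF_act_zero (Nd.var_prod hS hS).fr (psi_mem hw) hg le_rfl, map_zero, Int.cast_zero]

theorem fn_act (hW : W.Free) {a : K0 W} (ha : a ∈ FF W 2) (φ : G W →+ ℂ) {h} (x : GH ℂ W) :
    GH.fn (k := ℂ) 2 (φ.comp (kact W a)) h x = GH.fn0 φ (amk ℂ 2 a • x) := by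
  induction x using GH.induction with
  | h0 => simp
  | ha x y hx hy => rw [smul_add, map_add, map_add, hx, hy]
  | hs c x hx => rw [smul_comm, map_smul, map_smul, hx]
  | hm d g hg =>
    rw [GH.fn_hmk hW hg, amk_smul ha hg]
    by_cases hd : 2 ≤ d
    · rw [if_pos hd, GH.fn0_hmk hW _ (act_mem hW ha hg hd)]
      by_cases h2 : d = 2
      · rw [if_pos h2, if_pos (by omega)]; rfl
      · rw [if_neg h2, if_neg (by omega)]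
    · rw [if_neg hd, if_neg (by omega), map_zero]

theorem fn0_push {Y : Spc} (hW : W.IsProj) (hY : Y.IsProj) (f : Mor W Y) (φ : G Y →+ ℂ)
    (x : GH ℂ W) : GH.fn0 (φ.comp (fstar f)) x = GH.fn0 φ (GH.push f x) := by
  have : (GH.fn0 (φ.comp (fstar f)) : GH ℂ W →ₗ[ℂ] ℂ) = (GH.fn0 φ).comp (GH.push f) :=
    GH.ext fun d g hg => by
      rw [LinearMap.comp_apply, GH.push_hmk hW hY _ hg, GH.fn0_hmk (Nd.free hW) _ hg,
        GH.fn0_hmk (Nd.free hY) _ (Nd.fstar_Fd hW hY f hg)]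
      rfl
  rw [this]; rfl

theorem fn_Phi (hS : S.IsVar 2) (τ : G S →+ ℂ) (z z' : S.Pt) (x : GH ℂ (S.prod S)) :
    GH.fn (k := ℂ) 2 (Phi S τ z z') (kill_Phi hS τ z z') x = GH.fn0 τ (GH.push (Mor.snd S S)
      (GA.pull (Mor.fst S S) (amk ℂ 2 (dK S z - dK S z')) • x)) := by
  have hP := Nd.var_prod hS hS
  rw [GA.pull_amk _ (dK_mem z z'), ← fn0_push hP.proj hS.proj]
  exact fn_act hP.fr (Gd.FF_pull _ (dK_mem z z')) (τ.comp (fstar (Mor.snd S S))) x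

theorem fn_Psi (hS : S.IsVar 2) {w : K0 S} (hw : w ∈ FF S 1) (x : GH ℂ (S.prod S)) :
    GH.fn (k := ℂ) 2 (Psi S w) (kill_Psi hS hw) x = GH.deg
      ((GA.pull (Mor.fst S S) (amk ℂ 1 w) * GA.pull (Mor.snd S S) (amk ℂ 1 w)) • x) := by
  rw [GA.pull_amk _ hw, GA.pull_amk _ hw, ← amk_mul (Gd.FF_pull _ hw) (Gd.FF_pull _ hw)]
  exact fn_act (Nd.var_prod hS hS).fr (psi_mem hw) ((Int.castAddHom ℂ).comp (chiG _)) x

end Vale.Agent.P297Z.Sh
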