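import Vale.Agent.P297Z.Sh.Surf
import Vale.Agent.P297Z.Diag.Main

/-!
# P297: the universal shape and the vanishing
-/

set_option linter.all false

noncomputable section

namespace Vale.Agent.P297Z

namespace Sh

variable {S : Spc}

theorem gc_delta (hS : Dg.Smo S) (i : ℕ) : gc ℂ (i + 2) (delta S) =
    -(amk ℂ 2 (delta S) * GA.pull (Mor.fst S S) (gc ℂ i (-Dg.Om S))) := by
  have h1 := hS.cc_dl_sub (Mor.fst S S) (Mor.snd S S) (Nat.le_add_left 2 i)
  have h2 := hS.dl_FF (Mor.fst S S) (Mor.snd S S)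
  rw [Dg.dl_fst_snd, Dg.rr, Nat.add_sub_cancel] at h1
  rw [Dg.dl_fst_snd] at h2
  have h3 := Gd.FF_pull (Mor.fst S S) (neg_mem (Nd.cc_mem_FF i (-Dg.Om S)))
  have h4 := Gd.FF_mul h2 h3
  have h5 := amk_mul (k := ℂ) h2 h3
  rw [add_comm] at h4 h5
  rw [gc, amk_congr h4 h1, h5, ← GA.pull_amk _ (neg_mem (Nd.cc_mem_FF _ _)),
    amk_neg (Nd.cc_mem_FF _ _), map_neg, mul_neg, gc]

/-- the facts on the diagonal of a smooth surface -/
def dg (hS : Dg.Smo S) : DG S where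
  var := hS.var
  om := Dg.om S
  omc := hS.om_cls
  Om := Dg.Om S
  d1 hW s x := hS.D1 hW s x
  d2 hW s x := hS.D2 hW s x
  c1 := by
    rw [gc, ← Dg.dl_fst_snd, hS.cc_one_dl]
    exact amk_of_mem (neg_mem (hS.dl_FF _ _))
  c2 {W e} hW s := by
    have hP := Nd.var_prod hW hS.var
    have h1 := hS.D4 hW s le_rfl
    rw [Dg.rr_two, map_neg, map_one, map_neg, AddMonoidHom.neg_apply, kact_one, map_neg,
      Nat.add_sub_cancel] at h1
    rw [neg_smul, gc, amk_fund_add hP (Nd.cc_mem_FF _ _), GH.push_fund hW hP.proj,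
      neg_eq_iff_eq_neg, ← hmk_neg (Nd.fstar_Fd hW.proj hP.proj _ (Nd.Fd_top hW _))]
    exact hmk_congr h1
  ci i := by
    have h := gc_delta hS 0
    rw [gc_zero, map_one, mul_one, zero_add] at h
    rw [gc_delta hS, h, neg_mul]

theorem dgs : DGS := fun _ _ _ S h => ⟨dg (Dg.smo h), Dg.om_spc S h, by
  have h1 := (Dg.smo h).Om_cls.amk_det (k := ℂ) (by rw [Dg.lam_Om]; exact lK_cls S h _)
  rw [Dg.lam_Om] at h1
  exact h1.symm, fun _ _ hz => Dg.kact_dK S h hz⟩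

end Sh

theorem Sf.shape : Sf.SHAPE := Sh.shape_of Sh.dgs

theorem Sf.van_loci : Sf.VAN := Sh.van_of Sh.dgs

end Vale.Agent.P297Z
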