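import Vale.Agent.P297Z.Sh.Frame

/-!
# P297: the recursion on the number of points
-/

set_option linter.all false

noncomputable section

namespace Vale.Agent.P297Z.Sh

attribute [local simp] Ct.assoc Ct.lift_comp Ct.fst_lift Ct.snd_lift Ct.id_comp Ct.comp_id
  Ct.map_def Ct.lift_eta Ct.lift_eta'

variable {S V W Y Y' Z : Spc} {ι : Type}

/-- `Y'` is the product of `Y` and `S` -/
def IsPr (u : Mor Y' Y) (σ : Mor Y' S) : Prop :=
  ∃ e : Mor (Y.prod S) Y', u.comp e = Mor.fst Y S ∧ σ.comp e = Mor.snd Y S ∧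
    e.comp (Mor.lift u σ) = Mor.id Y'

theorem isPr_self (Y S : Spc) : IsPr (Mor.fst Y S) (Mor.snd Y S) :=
  ⟨Mor.id _, rfl, rfl, Ct.lift_eta⟩

theorem OP_cls (v : ℕ) (m : ℤ) : IsCls (OP v m) 1 := IsCls.line _

variable {L₀ M : K0 S} {v n₀ o₀ : ℕ} (T : Tower S L₀ M v n₀ o₀)

/-- the frame on `X n × Y` -/
def fr (c : Bool) (n : ℕ) (Ψ : Frame S Y ι) : Frame S ((T.X n).prod Y) ι where
  E a := if a = c then pullK ((Mor.fst _ Y).map (Mor.id S)) (T.E n)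
    else pullK ((Mor.snd _ Y).map (Mor.id S)) (Ψ.E a)
  h a := if a = c then pullK (Mor.fst _ Y) (pullK (T.p n) (OP v (-1)))
    else pullK (Mor.snd _ Y) (Ψ.h a)
  s j := (Ψ.s j).comp (Mor.snd _ Y)

theorem fr_E (c : Bool) (n : ℕ) (Ψ : Frame S Y ι) :
    (fr T c n Ψ).E c = pullK ((Mor.fst _ Y).map (Mor.id S)) (T.E n) := if_pos rfl

theorem fr_E' {a c : Bool} (h : a ≠ c) (n : ℕ) (Ψ : Frame S Y ι) :
    (fr T c n Ψ).E a = pullK ((Mor.snd _ Y).map (Mor.id S)) (Ψ.E a) := if_neg h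

theorem fr_h (c : Bool) (n : ℕ) (Ψ : Frame S Y ι) :
    (fr T c n Ψ).h c = pullK (Mor.fst _ Y) (pullK (T.p n) (OP v (-1))) := if_pos rfl

theorem fr_h' {a c : Bool} (h : a ≠ c) (n : ℕ) (Ψ : Frame S Y ι) :
    (fr T c n Ψ).h a = pullK (Mor.snd _ Y) (Ψ.h a) := if_neg h

variable {k : Type} [CommRing k]

theorem push_rho {n : ℕ} (hn : n < n₀) :
    GH.push (T.ρ n) (fund k (T.N n) (v + 2 * n + 2)) =
      T.c n • fund k (T.X (n + 1)) (v + 2 * n + 2) := by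
  have h1 : (T.X (n + 1)).IsVar (v + 2 * n + 2) := T.var (n + 1) hn
  rw [GH.push_fund (T.varN n hn) h1.proj, hmk_congr (T.ρstar n hn), hmk_nsmul (Nd.Fd_top h1 _)]
  rfl

theorem xi_mem {n : ℕ} (hn : n < n₀) : T.l n - 1 ∈ FF (T.N n) 1 := by
  have := neg_mem (T.lcls n hn).sub_mem
  rwa [neg_sub] at this

theorem xi_eq {n : ℕ} (hn : n < n₀) : amk k 1 (T.l n - 1) = -gc k 1 (T.l n) := by
  rw [(T.lcls n hn).gc_one, ← amk_neg (T.lcls n hn).sub_mem, neg_sub]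

theorem push_pi (hS : S.IsVar 2) {n : ℕ} (hn : n < n₀) (i : ℕ) :
    GH.push (T.π n) (amk k 1 (T.l n - 1) ^ i • fund k (T.N n) (v + 2 * n + 2)) =
      gc k i (-T.E n) • fund k ((T.X n).prod S) (v + 2 * n + 2) := by
  have hN := T.varN n hn
  have hP := Nd.var_prod (T.var n hn.le) hS
  have h1 : (T.l n - 1) ^ i ∈ FF (T.N n) i := by simpa using Gd.FF_pow (xi_mem T hn) i
  have h2 := amk_pow (k := k) (xi_mem T hn) i
  rw [mul_one] at h2
  rw [← h2, amk_fund hN h1, gc, amk_fund hP (Nd.cc_mem_FF _ _)]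
  split_ifs with h
  · rw [GH.push_hmk hN.proj hP.proj _ (act_oG_mem hN h1 h)]
    exact hmk_congr (T.πstar n hn i)
  · exact map_zero _

variable {L : Set (K0 S)}

theorem tower_step (D : DG S) (hL : ∀ M ∈ L, IsCls M 1) (hom : D.om ∈ L) (c : Bool) {n : ℕ}
    (hn : n < n₀) {e : ℕ} (hY : Y.IsVar e) (hY' : Y'.IsVar (e + 2)) {u : Mor Y' Y} {σ : Mor Y' S}
    (hp : IsPr u σ) (Ψ : Frame S Y ι) {μ : GA ℂ _} (hμ : μ ∈ (fr T c (n + 1) Ψ).Taut ℂ L)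
    {ω' : GA ℂ (T.X (n + 1))} {ω : GA ℂ (T.X n)} {θ : GA ℂ (T.N n)}
    (hω : GA.pull (T.ρ n) ω' = GA.pull ((Mor.fst _ _).comp (T.π n)) ω * θ)
    (hθ : ∀ Q : Subalgebra ℂ (GA ℂ (T.N n)), CIn Q (T.l n) →
      (∀ M ∈ L, CIn Q (pullK ((Mor.snd _ _).comp (T.π n)) M)) → θ ∈ Q) :
    ∃ μ' ∈ (fr T c n ((Ψ.pull u).more σ)).Taut ℂ L,
      GH.push (Mor.snd _ Y) ((GA.pull (Mor.fst _ Y) ω' * μ) •
          fund ℂ ((T.X (n + 1)).prod Y) (v + 2 * (n + 1) + e)) =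
        GH.push u (GH.push (Mor.snd _ Y') ((GA.pull (Mor.fst _ Y') ω * μ') •
          fund ℂ ((T.X n).prod Y') (v + 2 * n + (e + 2)))) := by
  obtain ⟨ε, hε1, hε2, hε3⟩ := hp
  have hS := D.var
  have hN := T.varN n hn
  have hX := T.var n hn.le
  have hX1 : (T.X (n + 1)).IsVar (v + 2 * n + 2) := T.var (n + 1) hn
  have hZ := Nd.var_prod hN hY
  have hA := Nd.var_prod hX1 hY
  have hB := Nd.var_prod hX hY'
  have hXS := Nd.var_prod hX hS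
  have hC := Nd.var_prod hXS hY
  let a : Mor ((T.N n).prod Y) ((T.X (n + 1)).prod Y) := (T.ρ n).map (Mor.id Y)
  let e2 : Mor (((T.X n).prod S).prod Y) ((T.X n).prod Y') :=
    Mor.lift ((Mor.fst _ _).comp (Mor.fst _ _))
      (ε.comp (Mor.lift (Mor.snd _ _) ((Mor.snd _ _).comp (Mor.fst _ _))))
  let b : Mor ((T.N n).prod Y) ((T.X n).prod Y') := e2.comp ((T.π n).map (Mor.id Y))
  have uε : ∀ {V : Spc} (f : Mor V (Y.prod S)), u.comp (ε.comp f) = (Mor.fst Y S).comp f :=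
    fun f => by rw [← Ct.assoc, hε1]
  have σε : ∀ {V : Spc} (f : Mor V (Y.prod S)), σ.comp (ε.comp f) = (Mor.snd Y S).comp f :=
    fun f => by rw [← Ct.assoc, hε2]
  have εl : ∀ {V : Spc} (f : Mor V Y'), ε.comp (Mor.lift (u.comp f) (σ.comp f)) = f :=
    fun f => by rw [← Ct.lift_comp, ← Ct.assoc, hε3, Ct.id_comp]
  have he2 : GH.push e2 (fund ℂ (((T.X n).prod S).prod Y) (v + 2 * n + 2 + e)) =
      fund ℂ ((T.X n).prod Y') (v + 2 * n + (e + 2)) := by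
    have e0 : v + 2 * n + (e + 2) = v + 2 * n + 2 + e := by ring
    rw [e0]
    refine GH.push_fund_of_inv hC hB.proj e2
      (Mor.lift (Mor.lift (Mor.fst _ _) (σ.comp (Mor.snd _ _))) (u.comp (Mor.snd _ _))) ?_ ?_
    · simp [e2, εl]
    · simp [e2, uε, σε]
  let Φ := fr T c n ((Ψ.pull u).more σ)
  let ξ : GA ℂ ((T.N n).prod Y) := GA.pull (Mor.fst _ _) (amk ℂ 1 (T.l n - 1))
  have hb : ∀ i : ℕ, GH.push b (ξ ^ i • fund ℂ ((T.N n).prod Y) (v + 2 * n + 2 + e)) =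
      gc ℂ i (-pullK (gr (Φ.s none)) (Φ.E c)) • fund ℂ ((T.X n).prod Y') (v + 2 * n + (e + 2)) := fun i => by
    rw [GH.push_comp hZ.proj hC.proj hB.proj, ← map_pow, GH.push_map_fund hN hXS hY,
      push_pi T hS hn, GH.xf_smul hXS hY, GH.xf_fund hXS hY, ← he2,
      ← GH.push_proj hC.proj hB.proj, pull_gc, pull_gc, map_neg, map_neg, fr_E, ← pullK_comp,
      ← pullK_comp]
    congr 6
    change _ = ((Mor.fst _ Y').map (Mor.id S)).comp ((gr (σ.comp (Mor.snd _ Y'))).comp e2)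
    simp [e2, gr, σε]
  have ha : GH.push a (fund ℂ ((T.N n).prod Y) (v + 2 * n + 2 + e)) =
      T.c n • fund ℂ ((T.X (n + 1)).prod Y) (v + 2 * n + 2 + e) := by
    have := GH.push_map_fund (k := ℂ) hN hX1 hY (T.ρ n) 1
    rwa [map_one, one_smul, one_smul, push_rho T hn, map_nsmul, GH.xf_fund hX1 hY] at this
  have hab : (Mor.snd _ Y).comp a = u.comp ((Mor.snd _ Y').comp b) := by simp [a, b, e2, uε]
  have e1 : (Mor.fst _ Y).comp a = (T.ρ n).comp (Mor.fst _ Y) := by simp [a]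
  have e3 : (Mor.fst _ Y').comp b =
      ((Mor.fst _ _).comp (T.π n)).comp (Mor.fst _ Y) := by simp [b, e2]
  have e4 : (σ.comp (Mor.snd _ Y')).comp b =
      ((Mor.snd _ _).comp (T.π n)).comp (Mor.fst _ Y) := by simp [b, e2, σε]
  have hl : gc ℂ 1 (pullK (Mor.fst _ Y) (T.l n)) ∈ (Φ.pull b).Taut ℂ L ⊔ Algebra.adjoin ℂ {ξ} := by
    refine le_sup_right (a := (Φ.pull b).Taut ℂ L) ?_
    rw [← pull_gc, ← neg_neg (gc ℂ 1 (T.l n)), ← xi_eq T hn, map_neg]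
    exact neg_mem (Algebra.subset_adjoin rfl)
  have hθ' : GA.pull (Mor.fst _ Y) θ ∈ (Φ.pull b).Taut ℂ L ⊔ Algebra.adjoin ℂ {ξ} := by
    refine (Subalgebra.mem_comap _ _ _).1 <| hθ (Subalgebra.comap (GA.pull (Mor.fst _ Y)) _)
      (CIn.of_line (T.lcls n hn) ?_) fun M hM i => ?_
    · rw [Subalgebra.mem_comap, pull_gc]; exact hl
    · rw [Subalgebra.mem_comap, pull_gc, ← pullK_comp, ← e4]
      exact le_sup_left (b := Algebra.adjoin ℂ {ξ})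
        ((Frame.Gen.M (L := L) (Φ := Φ.pull b) none M hM).cin i)
  have key : ((fr T c (n + 1) Ψ).pull a).Taut ℂ L ≤ (Φ.pull b).Taut ℂ L ⊔ Algebra.adjoin ℂ {ξ} := by
    refine Frame.step D hL hom hZ _ (Φ.pull b) c ((T.lcls n hn).pull (Mor.fst _ Y)) ?_ ?_ ?_ ?_
      le_sup_left hl
    · intro j
      change ((Ψ.s j).comp (Mor.snd _ Y)).comp a = (((Ψ.s j).comp u).comp (Mor.snd _ Y')).comp b
      simp [a, b, e2, uε]
    · funext x
      change pullK a ((fr T c (n + 1) Ψ).h x) = pullK b (Φ.h x)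
      by_cases hx : x = c
      · rw [hx, fr_h, fr_h, ← pullK_comp (Mor.fst _ _) a, ← pullK_comp (Mor.fst _ _) b]
        rw [e1, e3, pullK_comp, pullK_comp, ← pullK_comp (T.p (n + 1)), ← pullK_comp (T.p n),
          pullK_homot (Nd.var_PP v).fr (T.pρ n hn)]
      · rw [fr_h' T hx, fr_h' T hx, ← pullK_comp, hab, pullK_comp, pullK_comp]; rfl
    · intro x hx
      change pullK (a.map (Mor.id S)) ((fr T c (n + 1) Ψ).E x) = pullK (b.map (Mor.id S)) (Φ.E x)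
      rw [fr_E' T hx, fr_E' T hx, map_map, map_map, hab]
      exact (map_map _ _ _).symm
    · change pullK (a.map (Mor.id S)) ((fr T c (n + 1) Ψ).E c) =
        pullK (b.map (Mor.id S)) (Φ.E c) - _ * dS ((σ.comp (Mor.snd _ Y')).comp b)
      rw [fr_E, fr_E, map_map, map_map, e1, e3, e4, ← map_map, ← map_map _ (Mor.fst _ Y),
        T.step n hn, map_sub, map_mul, map_fst, ← map_dS]
      rfl
  let P : Submodule ℂ (GA ℂ ((T.N n).prod Y)) :=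
    (Cl ℂ (Φ.Taut ℂ L) (v + 2 * n + (e + 2))).comap
      ((GH.push b).comp (cap ℂ (fund ℂ ((T.N n).prod Y) (v + 2 * n + 2 + e))))
  have hP : GA.pull (Mor.fst _ Y) θ * GA.pull a μ ∈ P := by
    refine sup_ind _ ξ P ?_ _ (mul_mem hθ' (key (Frame.pull_mem hZ hA hS.proj _ a hμ)))
    intro t ht i
    rw [Frame.taut_pull hZ hB hS.proj] at ht
    obtain ⟨t, ht, rfl⟩ := ht
    change GH.push b ((GA.pull b t * ξ ^ i) • fund ℂ ((T.N n).prod Y) (v + 2 * n + 2 + e)) ∈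
      Cl ℂ (Φ.Taut ℂ L) (v + 2 * n + (e + 2))
    rw [gmul_smul, GH.push_proj hZ.proj hB.proj, hb, ← gmul_smul]
    exact mem_Cl (mul_mem (ht : t ∈ Φ.Taut ℂ L)
      ((Frame.Gen.E (L := L) (Φ := Φ) c none).cin.neg i))
  obtain ⟨μ', hμ', h'⟩ := hP
  have hc : (T.c n : ℂ) ≠ 0 := Nat.cast_ne_zero.2 (T.cpos n hn).ne'
  refine ⟨(T.c n : ℂ)⁻¹ • μ', Subalgebra.smul_mem _ hμ' _, ?_⟩
  change GH.push b ((GA.pull (Mor.fst _ Y) θ * GA.pull a μ) •
    fund ℂ ((T.N n).prod Y) (v + 2 * n + 2 + e)) = _ at h'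
  have e5 : GA.pull b (GA.pull (Mor.fst _ Y') ω) * (GA.pull (Mor.fst _ Y) θ * GA.pull a μ) =
      GA.pull a (GA.pull (Mor.fst _ Y) ω' * μ) := by
    rw [map_mul, ← GA.pull_comp (Mor.fst _ Y) a, ← GA.pull_comp (Mor.fst _ Y') b, e1, e3,
      GA.pull_comp, GA.pull_comp (T.ρ n), hω, map_mul, mul_assoc]
  rw [mul_smul_comm, smul_assoc, gmul_smul _ μ', ← h', ← GH.push_proj hZ.proj hB.proj,
    ← gmul_smul, e5, LinearMap.map_smul, LinearMap.map_smul,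
    ← GH.push_comp hZ.proj hB.proj hY'.proj,
    ← GH.push_comp hZ.proj hY'.proj hY.proj, ← hab, GH.push_comp hZ.proj hA.proj hY.proj,
    GH.push_proj hZ.proj hA.proj, ha, ← Nat.cast_smul_eq_nsmul ℂ,
    smul_comm (GA.pull (Mor.fst _ Y) ω' * μ),
    LinearMap.map_smul, smul_smul, inv_mul_cancel₀ hc, one_smul]
  rfl

theorem tower_base (hS : S.IsProj) (c : Bool) {e : ℕ} (hY : Y.IsVar e) (Ψ : Frame S Y ι)
    (hΨ : Ψ.E c = pullK (Mor.snd Y S) M) {μ : GA k _} (hμ : μ ∈ (fr T c 0 Ψ).Taut k L) :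
    GH.push (Mor.snd _ Y) (μ • fund k ((T.X 0).prod Y) (v + 2 * 0 + e)) ∈ Cl k (Ψ.Taut k L) e := by
  have hX := T.var 0 (Nat.zero_le _)
  have hZ := Nd.var_prod hX hY
  have hl := (OP_cls v (-1)).pull (T.p 0)
  let η : GA k (T.X 0) := gc k 1 (pullK (T.p 0) (OP v (-1)))
  let ξ : GA k ((T.X 0).prod Y) := GA.pull (Mor.fst _ _) η
  have key : (fr T c 0 Ψ).Taut k L ≤
      (Ψ.pull (Mor.snd _ Y)).Taut k L ⊔ Algebra.adjoin k {ξ} := by
    refine Frame.base hS hZ (fr T c 0 Ψ) (Ψ.pull (Mor.snd _ Y)) c (hl.pull (Mor.fst _ Y)) rfl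
      (fun a ha => fr_h' T ha _ _) (fr_h T _ _ _) (fun a ha => fr_E' T ha _ _) ?_ le_sup_left ?_
    · change _ = _ * pullK ((Mor.snd _ Y).map (Mor.id S)) (Ψ.E c)
      rw [fr_E, T.E0, hΨ, map_mul, map_fst, map_snd, map_snd]
    · refine le_sup_right (a := (Ψ.pull (Mor.snd _ Y)).Taut k L) ?_
      rw [← pull_gc]
      exact Algebra.subset_adjoin rfl
  let P : Submodule k (GA k ((T.X 0).prod Y)) :=
    (Cl k (Ψ.Taut k L) e).comap
      ((GH.push (Mor.snd _ Y)).comp (cap k (fund k ((T.X 0).prod Y) (v + 2 * 0 + e))))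
  refine sup_ind _ ξ P ?_ _ (key hμ)
  intro t ht i
  rw [Frame.taut_pull hZ hY hS] at ht
  obtain ⟨t, ht, rfl⟩ := ht
  change GH.push (Mor.snd _ Y) ((GA.pull (Mor.snd _ Y) t * ξ ^ i) •
    fund k ((T.X 0).prod Y) (v + 2 * 0 + e)) ∈ Cl k (Ψ.Taut k L) e
  rw [gmul_smul, GH.push_proj hZ.proj hY.proj, ← map_pow, GH.push_snd_fund hX hY, smul_comm]
  exact Submodule.smul_mem _ _ (mem_Cl (ht : t ∈ Ψ.Taut k L))

end Vale.Agent.P297Z.Sh
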