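import Vale.Agent.P297Z.Sh.Elim

/-!
# P297: integration over all the slots with an insertion
-/

set_option linter.all false

noncomputable section

namespace Vale.Agent.P297Z.Sh

variable {S : Spc}

/-- the product of `k + 2` copies -/
def Bk (S : Spc) : ℕ → Spc
  | 0 => S.prod S
  | k + 1 => (Bk S k).prod S

/-- the names of the slots -/
def Ix : ℕ → Type
  | 0 => Option Unit
  | k + 1 => Option (Ix k)

/-- the two slots of the square -/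
abbrev s0 (S : Spc) : Option Unit → Mor (S.prod S) S := ext fun _ => Mor.id S

/-- the slots -/
def sB (S : Spc) : ∀ k, Ix k → Mor (Bk S k) S
  | 0 => s0 S
  | k + 1 => ext (sB S k)

/-- the projection to the first two factors -/
def qB (S : Spc) : ∀ k, Mor (Bk S k) (S.prod S)
  | 0 => Mor.id _
  | k + 1 => (qB S k).comp (Mor.fst _ _)

/-- the class `α` in the last `k` slots -/
def AB (α : GA ℂ S) : ∀ k, GA ℂ (Bk S k)
  | 0 => 1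
  | k + 1 => GA.pull (Mor.snd (Bk S k) S) α * GA.pull (Mor.fst (Bk S k) S) (AB α k)

theorem var_Bk (hS : S.IsVar 2) : ∀ k, (Bk S k).IsVar (2 + 2 + 2 * k)
  | 0 => (Nd.var_prod hS hS).cast rfl
  | k + 1 => (Nd.var_prod (var_Bk hS k) hS).cast rfl

/-- the value of a functional on the integral -/
def EV (α : GA ℂ S) (T : GH ℂ (S.prod S) →ₗ[ℂ] ℂ) (k : ℕ) : GA ℂ (Bk S k) →ₗ[ℂ] ℂ :=
  T.comp ((GH.push (qB S k)).comp ((cap ℂ (fund ℂ (Bk S k) (2 + 2 + 2 * k))).comp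
    (LinearMap.mulLeft ℂ (AB α k))))

theorem EV_apply (α : GA ℂ S) (T : GH ℂ (S.prod S) →ₗ[ℂ] ℂ) (k : ℕ) (μ : GA ℂ (Bk S k)) :
    EV α T k μ = T (GH.push (qB S k) ((AB α k * μ) • fund ℂ (Bk S k) (2 + 2 + 2 * k))) := rfl

theorem EV_zero (hS : S.IsVar 2) (α : GA ℂ S) (T : GH ℂ (S.prod S) →ₗ[ℂ] ℂ)
    (μ : GA ℂ (S.prod S)) : EV α T 0 μ = T (μ • fund ℂ (S.prod S) (2 + 2)) := by
  change T (GH.push (Mor.id _) (((1 : GA ℂ (S.prod S)) * μ) • fund ℂ (S.prod S) (2 + 2))) = _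
  rw [one_mul, GH.push_id (Nd.var_prod hS hS).proj]

theorem EV_succ (hS : S.IsVar 2) (α : GA ℂ S) (T : GH ℂ (S.prod S) →ₗ[ℂ] ℂ) {k : ℕ}
    {μ : GA ℂ ((Bk S k).prod S)} {ν : GA ℂ (Bk S k)}
    (h : GH.push (Mor.fst _ S) ((GA.pull (Mor.snd _ S) α * μ) •
      fund ℂ ((Bk S k).prod S) (2 + 2 + 2 * k + 2)) = ν • fund ℂ (Bk S k) (2 + 2 + 2 * k)) :
    EV α T (k + 1) μ = EV α T k ν := by
  have hB := var_Bk hS k
  have hP := (Nd.var_prod hB hS).proj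
  change T (GH.push ((qB S k).comp (Mor.fst _ S))
    (((GA.pull (Mor.snd (Bk S k) S) α * GA.pull (Mor.fst (Bk S k) S) (AB α k)) * μ) •
      fund ℂ ((Bk S k).prod S) (2 + 2 + 2 * k + 2))) = _
  rw [GH.push_comp hP hB.proj (Nd.var_prod hS hS).proj, mul_comm (GA.pull (Mor.snd _ S) α),
    mul_assoc, mul_smul, GH.push_proj hP hB.proj, h, ← mul_smul, EV_apply]

theorem top_Ge : Ge S 2 ≤ (⊤ : Subalgebra ℂ (GA ℂ S)).toSubmodule :=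
  fun _ _ => Algebra.mem_top (R := ℂ)

theorem gr_snd' {B : Spc} (s : Mor B S) (x : GA ℂ S) :
    GA.pull (gr s) (GA.pull (Mor.snd B S) x) = GA.pull s x := by
  rw [← GA.pull_comp, gr, Ct.snd_lift]

theorem gr_fst' {B : Spc} (s : Mor B S) (x : GA ℂ B) :
    GA.pull (gr s) (GA.pull (Mor.fst B S) x) = x := by
  rw [← GA.pull_comp, gr, Ct.fst_lift, GA.pull_id]

theorem push_ins (D : DG S) {B : Spc} {e : ℕ} (hB : B.IsVar e) (s : Mor B S) (α : GA ℂ S)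
    (x : GA ℂ (B.prod S)) : GH.push (Mor.fst B S)
      ((GA.pull (Mor.snd B S) α * (gc ℂ 2 (dS s) * x)) • fund ℂ (B.prod S) (e + 2)) =
      (-(GA.pull s α * GA.pull (gr s) x)) • fund ℂ B e := by
  rw [mul_left_comm, D.push_fst_dS hB, map_mul, gr_snd', neg_smul]

theorem push_ins' (hS : S.IsVar 2) {B : Spc} {e : ℕ} (hB : B.IsVar e) (α ρ : GA ℂ S)
    (μ : GA ℂ B) : GH.push (Mor.fst B S) ((GA.pull (Mor.snd B S) α *
      (GA.pull (Mor.snd B S) ρ * GA.pull (Mor.fst B S) μ)) • fund ℂ (B.prod S) (e + 2)) =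
      (GH.deg ((α * ρ) • fund ℂ S 2) • μ) • fund ℂ B e := by
  rw [← mul_assoc, ← map_mul, push_prod hS hB, smul_assoc]

/-- one more insertion gives zero -/
theorem claimB (D : DG S) {α : GA ℂ S} (h1 : α ∈ Ge S 1) (h2 : GH.deg ((α * α) • fund ℂ S 2) = 0)
    {T : GH ℂ (S.prod S) →ₗ[ℂ] ℂ} (hK : ∀ j, ∀ μ ∈ TS ⊤ (s0 S),
      T ((GA.pull (s0 S j) α * μ) • fund ℂ (S.prod S) (2 + 2)) = 0) (k : ℕ) :
    ∀ j, ∀ μ ∈ TS ⊤ (sB S k), EV α T k (GA.pull (sB S k j) α * μ) = 0 := by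
  have hS := D.var
  induction k with
  | zero => exact fun j μ hμ => (EV_zero hS α T _).trans (hK j μ hμ)
  | succ k ih =>
    have hB := var_Bk hS k
    rintro (_ | j) (μ : GA ℂ ((Bk S k).prod S)) hμ
    · refine elim_ind D top_Ge (sB S k) (LinearMap.ker ((EV α T (k + 1)).comp
        (LinearMap.mulLeft ℂ (GA.pull (Mor.snd (Bk S k) S) α)))) (fun ρ _ ν _ => ?_)
        (fun j x hx => ?_) μ hμ
      · have h3 := push_ins' hS hB α (α * ρ) ν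
        rw [map_mul _ α ρ, mul_assoc (GA.pull _ α) (GA.pull _ ρ), ← mul_assoc α,
          deg_top (Ge_mul (n := 1) (m := 1) h1 h1) h2, zero_smul] at h3
        exact (EV_succ hS α T h3).trans (map_zero _)
      · have h3 := push_ins D hB (sB S k j) α (GA.pull (Mor.snd (Bk S k) S) α * x)
        rw [mul_left_comm (gc ℂ 2 _)] at h3
        refine (EV_succ hS α T h3).trans ?_
        rw [map_neg, map_mul (GA.pull _), gr_snd',
          ih j _ (mul_mem (pull_mem_TS _ j Algebra.mem_top) hx), neg_zero]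
    · obtain ⟨ν, h3, h4⟩ := elim0 D top_Ge hB (sB S k)
        (mul_mem (snd_mem (sB S k) (Algebra.mem_top (x := α))) hμ)
      refine (EV_succ hS α T (ν := GA.pull (sB S k j) α * ν) ?_).trans (ih j ν h3)
      change GH.push _ ((_ * (GA.pull (Mor.fst (Bk S k) S) (GA.pull (sB S k j) α) * μ)) • _) = _
      rw [mul_left_comm, mul_smul, GH.push_proj (Nd.var_prod hB hS).proj hB.proj, h4, mul_smul]

theorem claimA (D : DG S) {R : Subalgebra ℂ (GA ℂ S)} (hR : Ge S 2 ≤ R.toSubmodule) {I : Type*}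
    {α : I → GA ℂ S} {t : I → ℂ} {T : I → GH ℂ (S.prod S) →ₗ[ℂ] ℂ} (U : Submodule ℂ (I → ℂ))
    (hB : ∀ i k j, ∀ μ ∈ TS ⊤ (sB S k), EV (α i) (T i) k (GA.pull (sB S k j) (α i) * μ) = 0)
    (hl : ∀ ρ ∈ R, ∃ l : ℂ, ∀ i, GH.deg ((α i * ρ) • fund ℂ S 2) = l * t i)
    (h0 : ∀ μ ∈ TS R (s0 S), (fun i => T i (μ • fund ℂ (S.prod S) (2 + 2))) ∈ U) (k : ℕ) :
    ∀ μ ∈ TS R (sB S k), ∃ u ∈ U, ∀ i, EV (α i) (T i) k μ = t i ^ k * u i := by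
  have hS := D.var
  induction k with
  | zero =>
    exact fun μ hμ => ⟨_, h0 μ hμ, fun i => by rw [pow_zero, one_mul]; exact EV_zero hS _ _ μ⟩
  | succ k ih =>
    have hV := var_Bk hS k
    intro μ hμ
    refine (elim_ind D hR (sB S k) ((U.map (LinearMap.mulLeft ℂ (t ^ (k + 1)))).comap
      (LinearMap.pi fun i => EV (α i) (T i) (k + 1))) (fun ρ hρ ν hν => ?_) (fun j x hx => ?_)
      μ hμ).imp fun u h => ⟨h.1, fun i => (congrFun h.2 i).symm⟩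
    · obtain ⟨l, hl⟩ := hl ρ hρ
      obtain ⟨u, hu, h⟩ := ih ν hν
      refine ⟨l • u, U.smul_mem l hu, funext fun i => ?_⟩
      refine Eq.trans ?_ (EV_succ hS _ _ (push_ins' hS hV (α i) ρ ν)).symm
      rw [LinearMap.map_smul (EV _ _ _), h, hl]
      simp only [LinearMap.mulLeft_apply, Pi.mul_apply, Pi.pow_apply, Pi.smul_apply, smul_eq_mul]
      ring
    · refine ⟨0, zero_mem _, funext fun i => ?_⟩
      refine Eq.trans ?_ (EV_succ hS _ _ (push_ins D hV (sB S k j) (α i) x)).symm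
      rw [map_neg, hB i k j _ (TS_top _ hx), map_zero, neg_zero]
      rfl

/-! ### the functionals -/

/-- the action of a correspondence on `ξ`, followed by `τ` -/
def TT (ξ : GA ℂ S) (τ : GH ℂ S →ₗ[ℂ] ℂ) : GH ℂ (S.prod S) →ₗ[ℂ] ℂ :=
  τ.comp ((GH.push (Mor.snd S S)).comp (GA.act _ (GA.pull (Mor.fst S S) ξ)))

theorem TT_apply (ξ : GA ℂ S) (τ : GH ℂ S →ₗ[ℂ] ℂ) (g : GH ℂ (S.prod S)) :
    TT ξ τ g = τ (GH.push (Mor.snd S S) (GA.pull (Mor.fst S S) ξ • g)) := rfl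

theorem TT_prod (hS : S.IsVar 2) (ξ : GA ℂ S) (τ : GH ℂ S →ₗ[ℂ] ℂ) (ρ μ : GA ℂ S) :
    TT ξ τ ((GA.pull (Mor.snd S S) ρ * GA.pull (Mor.fst S S) μ) • fund ℂ (S.prod S) (2 + 2)) =
      GH.deg ((ξ * μ) • fund ℂ S 2) * τ (ρ • fund ℂ S 2) := by
  rw [TT_apply, ← mul_smul, mul_left_comm, ← map_mul, mul_smul,
    GH.push_proj (Nd.var_prod hS hS).proj hS.proj, GH.push_snd_fund hS hS, smul_comm,
    LinearMap.map_smul, smul_eq_mul]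

theorem TT_diag (D : DG S) (ξ : GA ℂ S) (τ : GH ℂ S →ₗ[ℂ] ℂ) (x : GA ℂ (S.prod S)) :
    TT ξ τ ((gc ℂ 2 (dS (Mor.id S)) * x) • fund ℂ (S.prod S) (2 + 2)) =
      -τ ((ξ * GA.pull (gr (Mor.id S)) x) • fund ℂ S 2) := by
  rw [TT_apply, ← mul_smul, mul_left_comm, D.push_dS D.var D.var.proj, map_mul, gr_fst', map_neg,
    gr, Ct.snd_lift, GH.push_id D.var.proj]

theorem TS_id {R : Subalgebra ℂ (GA ℂ S)} (hR : Ge S 2 ≤ R.toSubmodule) :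
    TS R (fun _ : Unit => Mor.id S) ≤ R :=
  TS_le (fun _ _ h => h) fun _ _ => hR (gc_mem_Ge le_rfl _)

/-- the data of a test -/
structure Test (𝒲 : Set (GA ℂ S × ℂ)) where
  p : GA ℂ S × ℂ
  mem : p ∈ 𝒲
  iso : GH.deg ((p.1 * p.1) • fund ℂ S 2) = 0
  ξ : GA ℂ S
  τ : GH ℂ S →ₗ[ℂ] ℂ
  m : ℂ
  a2 : ∀ y ∈ Ge S 1, τ ((ξ * y) • fund ℂ S 2) = 0
  k1 : ∀ y, GH.deg ((ξ * (p.1 * y)) • fund ℂ S 2) = 0
  k2 : ∀ y ρ, GH.deg ((ξ * y) • fund ℂ S 2) * τ ((p.1 * ρ) • fund ℂ S 2) = 0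
  a1 : ∀ (ρ μ : GA ℂ S) (l l' : ℂ), (∀ q ∈ 𝒲, GH.deg ((q.1 * ρ) • fund ℂ S 2) = l * q.2) →
    (∀ q ∈ 𝒲, GH.deg ((q.1 * μ) • fund ℂ S 2) = l' * q.2) →
    GH.deg ((ξ * μ) • fund ℂ S 2) * τ (ρ • fund ℂ S 2) = l * l' * m

theorem Test.kill (D : DG S) {𝒲 : Set (GA ℂ S × ℂ)} (i : Test 𝒲) (h : i.p.1 ∈ Ge S 1)
    (j : Option Unit) : ∀ ν ∈ TS ⊤ (s0 S),
      TT i.ξ i.τ ((GA.pull (s0 S j) i.p.1 * ν) • fund ℂ (S.prod S) (2 + 2)) = 0 := by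
  have hS := D.var
  refine elim_ind D top_Ge (fun _ : Unit => Mor.id S) (LinearMap.ker ((TT i.ξ i.τ).comp
    ((cap ℂ (fund ℂ (S.prod S) (2 + 2))).comp
      (LinearMap.mulLeft ℂ (GA.pull (s0 S j) i.p.1))))) (fun ρ _ y _ => ?_) (fun _ x _ => ?_)
  · rw [LinearMap.mem_ker, LinearMap.comp_apply, LinearMap.comp_apply, LinearMap.mulLeft_apply,
      cap_apply]
    cases j with
    | none =>
      change TT _ _ ((GA.pull (Mor.snd S S) i.p.1 * _) • _) = 0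
      rw [← mul_assoc, ← map_mul, TT_prod hS, i.k2]
    | some j =>
      change TT _ _ ((GA.pull (Mor.fst S S) i.p.1 * _) • _) = 0
      rw [mul_left_comm, ← map_mul, TT_prod hS, i.k1, zero_mul]
  · rw [LinearMap.mem_ker, LinearMap.comp_apply, LinearMap.comp_apply, LinearMap.mulLeft_apply,
      cap_apply, mul_left_comm, TT_diag D, map_mul, i.a2, neg_zero]
    refine Ge_mul_right ?_ _
    cases j with
    | none => exact (gr_snd' (Mor.id S) i.p.1).symm ▸ h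
    | some j => exact (gr_fst' (Mor.id S) i.p.1).symm ▸ h

theorem Test.diag (D : DG S) (x : GA ℂ (S.prod S)) : ∃ c : ℂ, ∀ {𝒲 : Set (GA ℂ S × ℂ)}
    (i : Test 𝒲), TT i.ξ i.τ ((gc ℂ 2 (dS (Mor.id S)) * x) • fund ℂ (S.prod S) (2 + 2)) =
      c * i.τ (i.ξ • fund ℂ S 2) := by
  obtain ⟨c, y, hy, h1⟩ := exists_Ge_one (GA.pull (gr (Mor.id S)) x)
  refine ⟨-c, fun i => ?_⟩
  rw [TT_diag D, h1, mul_add, add_smul, map_add, i.a2 y hy, mul_smul_comm, mul_one, smul_assoc,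
    LinearMap.map_smul, smul_eq_mul, add_zero, neg_mul]

theorem Test.base (D : DG S) {R : Subalgebra ℂ (GA ℂ S)} (hR : Ge S 2 ≤ R.toSubmodule)
    {𝒲 : Set (GA ℂ S × ℂ)}
    (hl : ∀ ρ ∈ R, ∃ l : ℂ, ∀ p ∈ 𝒲, GH.deg ((p.1 * ρ) • fund ℂ S 2) = l * p.2) :
    ∀ ν ∈ TS R (s0 S), (LinearMap.pi fun i : Test 𝒲 =>
      (TT i.ξ i.τ).comp (cap ℂ (fund ℂ (S.prod S) (2 + 2)))) ν ∈
      Submodule.span ℂ {fun i : Test 𝒲 => i.τ (i.ξ • fund ℂ S 2), fun i => i.m} := by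
  refine fun ν hν => Submodule.mem_comap.1 (elim_ind D hR (fun _ : Unit => Mor.id S) _
    (fun ρ hρ y hy => ?_) (fun _ x _ => ?_) ν hν)
  · obtain ⟨l, h1⟩ := hl ρ hρ
    obtain ⟨l', h2⟩ := hl y (TS_id hR hy)
    refine Submodule.mem_comap.2 (Submodule.mem_span_pair.2 ⟨0, l * l', funext fun i => ?_⟩)
    rw [LinearMap.pi_apply, LinearMap.comp_apply, cap_apply, TT_prod D.var, i.a1 ρ y l l' h1 h2,
      zero_smul, zero_add, Pi.smul_apply, smul_eq_mul]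
  · obtain ⟨c, h⟩ := Test.diag D x
    refine Submodule.mem_comap.2 (Submodule.mem_span_pair.2 ⟨c, 0, funext fun i => ?_⟩)
    rw [LinearMap.pi_apply, LinearMap.comp_apply, cap_apply, h, zero_smul, add_zero,
      Pi.smul_apply, smul_eq_mul]

theorem shape_test (D : DG S) {R : Subalgebra ℂ (GA ℂ S)} (hR : Ge S 2 ≤ R.toSubmodule)
    {𝒲 : Set (GA ℂ S × ℂ)} (hW : ∀ p ∈ 𝒲, p.1 ∈ Ge S 1)
    (hl : ∀ ρ ∈ R, ∃ l : ℂ, ∀ p ∈ 𝒲, GH.deg ((p.1 * ρ) • fund ℂ S 2) = l * p.2) {k : ℕ}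
    {μ : GA ℂ (Bk S k)} (hμ : μ ∈ TS R (sB S k)) : ∃ N M : ℂ, ∀ i : Test 𝒲,
      EV i.p.1 (TT i.ξ i.τ) k μ = i.p.2 ^ k * (N * i.τ (i.ξ • fund ℂ S 2) + M * i.m) := by
  obtain ⟨u, hu, h⟩ := claimA D hR (I := Test 𝒲) (α := fun i => i.p.1) (t := fun i => i.p.2)
    (T := fun i => TT i.ξ i.τ) _
    (fun i => claimB D (hW _ i.mem) i.iso (i.kill D (hW _ i.mem)))
    (fun ρ hρ => (hl ρ hρ).imp fun l h i => h _ i.mem) (Test.base D hR hl) k μ hμ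
  obtain ⟨N, M, rfl⟩ := Submodule.mem_span_pair.1 hu
  exact ⟨N, M, h⟩

/-- **the shape** of the integral of a class of `TS` -/
theorem shape_TS (D : DG S) {R : Subalgebra ℂ (GA ℂ S)} (hR : Ge S 2 ≤ R.toSubmodule)
    {𝒲 : Set (GA ℂ S × ℂ)} (hW : ∀ p ∈ 𝒲, p.1 ∈ Ge S 1)
    (hl : ∀ ρ ∈ R, ∃ l : ℂ, ∀ p ∈ 𝒲, GH.deg ((p.1 * ρ) • fund ℂ S 2) = l * p.2) {k : ℕ}
    {μ : GA ℂ (Bk S k)} (hμ : μ ∈ TS R (sB S k)) : ∃ N M : ℂ, ∀ p ∈ 𝒲,
      GH.deg ((p.1 * p.1) • fund ℂ S 2) = 0 →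
      (∀ ξ ∈ Ge S 2, GH.deg (ξ • fund ℂ S 2) = 0 → ∀ τ : GH ℂ S →ₗ[ℂ] ℂ,
        EV p.1 (TT ξ τ) k μ = p.2 ^ k * (N * τ (ξ • fund ℂ S 2))) ∧
      ∀ q ∈ 𝒲, GH.deg ((q.1 * p.1) • fund ℂ S 2) = 0 →
        EV p.1 (TT q.1 (GH.deg.comp (GA.act _ q.1))) k μ =
          p.2 ^ k * (N * GH.deg ((q.1 * q.1) • fund ℂ S 2) + M * q.2 ^ 2) := by
  obtain ⟨N, M, h⟩ := shape_test D hR hW hl hμ
  refine ⟨N, M, fun p hp h0 => ⟨fun ξ hξ h1 τ => ?_, fun q hq h1 => ?_⟩⟩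
  · have := h ⟨p, hp, h0, ξ, τ, 0,
      fun y hy => by rw [Ge_fund (by omega) (Ge_mul hξ hy), map_zero],
      fun y => deg_top hξ h1 _, fun y ρ => by rw [deg_top hξ h1, zero_mul],
      fun ρ μ l l' _ _ => by rw [deg_top hξ h1, zero_mul, mul_zero]⟩
    rwa [mul_zero, add_zero] at this
  · have e : ∀ y : GA ℂ S, (GH.deg.comp (GA.act _ q.1) : GH ℂ S →ₗ[ℂ] ℂ) (y • fund ℂ S 2) =
        GH.deg ((q.1 * y) • fund ℂ S 2) := fun y => by rw [mul_smul]; rfl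
    have h2 : ∀ y, GH.deg ((q.1 * (p.1 * y)) • fund ℂ S 2) = 0 := fun y => by
      rw [← mul_assoc, deg_top (Ge_mul (n := 1) (m := 1) (hW _ hq) (hW _ hp)) h1]
    have := h ⟨p, hp, h0, q.1, GH.deg.comp (GA.act _ q.1), q.2 ^ 2,
      fun y hy => by
        rw [e, Ge_fund (by omega) (Ge_mul (hW _ hq) (Ge_mul (hW _ hq) hy)), map_zero],
      h2, fun y ρ => by rw [e, h2, mul_zero],
      fun ρ μ l l' h3 h4 => by rw [e, h3 q hq, h4 q hq]; ring⟩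
    rwa [e] at this

end Vale.Agent.P297Z.Sh
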