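import Vale.Agent.P297Z.Sh.Pass
import Vale.Agent.P297Z.Sh.Wt
import Vale.Agent.P297Z.Sh.Gam

/-!
# P297: the contribution of a fixed locus is tautological
-/

set_option linter.all false

noncomputable section

namespace Vale.Agent.P297Z.Sh

open PowerSeries

attribute [local simp] Ct.assoc Ct.lift_comp Ct.fst_lift Ct.snd_lift Ct.id_comp Ct.comp_id
  Ct.map_def Ct.lift_eta Ct.lift_eta'

variable {S V W : Spc}

/-- the projection to the last `k` factors -/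
def pw (S : Spc) : ∀ k, Mor (Bk S k) (S.pow k)
  | 0 => Mor.toPt _ Empty 0
  | k + 1 => (pw S k).map (Mor.id S)

/-- the inverse map -/
def iv (S : Spc) : ∀ k, Mor ((S.pow k).prod (S.prod S)) (Bk S k)
  | 0 => Mor.snd _ _
  | k + 1 => Mor.lift ((iv S k).comp ((Mor.fst (S.pow k) S).map (Mor.id _)))
      ((Mor.snd (S.pow k) S).comp (Mor.fst _ _))

theorem pw_iv (S : Spc) : ∀ k, (pw S k).comp (iv S k) = Mor.fst _ _
  | 0 => Ct.to_pt_ext _ _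
  | k + 1 => by
    change ((pw S k).map (Mor.id S)).comp
      (Mor.lift ((iv S k).comp ((Mor.fst (S.pow k) S).map (Mor.id _)))
        ((Mor.snd (S.pow k) S).comp (Mor.fst _ _))) = Mor.fst ((S.pow k).prod S) (S.prod S)
    rw [Ct.map_def, Ct.lift_comp, Ct.fst_lift', Ct.snd_lift', ← Ct.assoc, pw_iv S k]
    simp

theorem qB_iv (S : Spc) : ∀ k, (qB S k).comp (iv S k) = Mor.snd _ _
  | 0 => rfl
  | k + 1 => by
    change ((qB S k).comp (Mor.fst (Bk S k) S)).comp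
      (Mor.lift ((iv S k).comp ((Mor.fst (S.pow k) S).map (Mor.id _)))
        ((Mor.snd (S.pow k) S).comp (Mor.fst _ _))) = Mor.snd ((S.pow k).prod S) (S.prod S)
    rw [Ct.fst_lift', ← Ct.assoc, qB_iv S k]
    simp

theorem iv_lift (S : Spc) : ∀ k, (iv S k).comp (Mor.lift (pw S k) (qB S k)) = Mor.id _
  | 0 => Ct.snd_lift _ _
  | k + 1 => by
    change (Mor.lift ((iv S k).comp ((Mor.fst (S.pow k) S).map (Mor.id _)))
        ((Mor.snd (S.pow k) S).comp (Mor.fst _ _))).comp (Mor.lift ((pw S k).map (Mor.id S))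
          ((qB S k).comp (Mor.fst (Bk S k) S))) = Mor.id ((Bk S k).prod S)
    have h : (iv S k).comp (Mor.lift ((pw S k).comp (Mor.fst (Bk S k) S))
        ((qB S k).comp (Mor.fst (Bk S k) S))) = Mor.fst _ _ := by
      rw [← Ct.lift_comp, ← Ct.assoc, iv_lift S k, Ct.id_comp]
    simp [h]

theorem slot_last (S : Spc) (k : ℕ) :
    (slot S (k + 1) (Fin.last k)).comp (pw S (k + 1)) = Mor.snd (Bk S k) S := by
  have : slot S (k + 1) (Fin.last k) = Mor.snd (S.pow k) S := Fin.lastCases_last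
  rw [this]
  exact Ct.snd_lift _ _

theorem slot_cast (S : Spc) (k : ℕ) (i : Fin k) : (slot S (k + 1) i.castSucc).comp (pw S (k + 1)) =
    ((slot S k i).comp (pw S k)).comp (Mor.fst (Bk S k) S) := by
  have : slot S (k + 1) i.castSucc = (slot S k i).comp (Mor.fst (S.pow k) S) :=
    Fin.lastCases_castSucc i
  rw [this]
  exact Ct.fst_lift' _ _ _

theorem slot_pw (S : Spc) : ∀ k (i : Fin k), ∃ j, (slot S k i).comp (pw S k) = sB S k j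
  | 0, i => i.elim0
  | k + 1, i => by
    induction i using Fin.lastCases with
    | last => exact ⟨none, slot_last S k⟩
    | cast i =>
      obtain ⟨j, h⟩ := slot_pw S k i
      exact ⟨some j, by rw [slot_cast, h]; rfl⟩

theorem s0_qB (S : Spc) (a : Option Unit) : ∀ k, ∃ j, (s0 S a).comp (qB S k) = sB S k j
  | 0 => ⟨a, rfl⟩
  | k + 1 => by
    obtain ⟨j, h⟩ := s0_qB S a k
    exact ⟨some j, congrArg (fun f => f.comp (Mor.fst (Bk S k) S)) h⟩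

theorem prod_slot (α : GA ℂ S) : ∀ k, ∏ i, GA.pull ((slot S k i).comp (pw S k)) α = AB α k
  | 0 => Finset.prod_empty
  | k + 1 => by
    rw [Fin.prod_univ_castSucc, slot_last, AB, ← prod_slot α k, map_prod, mul_comm]
    congr 1
    exact Finset.prod_congr rfl fun i _ => by rw [slot_cast]; rfl

theorem CIn.comap {k : Type} [CommRing k] {T : Subalgebra k (GA k V)} {f : Mor V W} {x : K0 W}
    (h : CIn T (pullK f x)) : CIn (T.comap (GA.pull f)) x := fun i => by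
  rw [Subalgebra.mem_comap, pull_gc]; exact h i

theorem SIn.xpow {k A : Type*} [CommRing k] [CommRing A] [Algebra k A] (T : Subalgebra k A)
    (n : ℕ) : SIn T (X ^ n) := by simpa using SIn.mono (one_mem T) n

theorem sin_kA {T : Subalgebra ℂ (GA ℂ W)} {E₁ E₂ : K0 W} (h₁ : CIn T E₁) (h₂ : CIn T E₂) :
    SIn T (kA ℂ E₁ E₂) :=
  ((SIn.mono1 (h₁ 1)).mul (SIn.one.add (SIn.mono1 (h₂ 1)))).add
    (SIn.mono (add_mem (h₁ 2) (h₂ 2)) 2)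

theorem map_resc (f : Mor V W) (x : K0 W) :
    map (GA.pullR ℂ f) (rescale (-1) (cA ℂ x)) = rescale (-1) (cA ℂ (pullK f x)) := by
  rw [← cA_dual, ← cA_dual, map_cA, pullK_dualK]

variable {M : Bool → K0 S} {L₁ L₂ : K0 S} {v₁ v₂ n₁ n₂ o₁ o₂ : ℕ}
  (T₁ : Tower S L₁ (M false) v₁ n₁ o₁) (T₂ : Tower S L₂ (M true) v₂ n₂ o₂) (k : ℕ)

/-- the integrand without the top Chern classes -/
def restA : GA ℂ (Wk (Fx T₁ T₂) S k) :=
  coeff (v₁ + 2 * n₁ + (v₂ + 2 * n₂) + 2 * k + 2)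
    (X ^ (o₁ + n₁ + (o₂ + n₂)) * cA ℂ (pullK (Wk.base _ S k) (bP T₁ T₂)) *
      rescale (-1) (cA ℂ (pullK (Wk.base _ S k) (bM T₁ T₂))) *
      (∏ i, kA ℂ (Wk.at k i (E1 T₁ T₂)) (Wk.at k i (E2 T₁ T₂))) * X ^ k)

theorem bodyA_eq :
    bodyA ℂ T₁ T₂ k = GA.pull (Wk.base _ S k) (topA ℂ T₁ T₂) * restA T₁ T₂ k := by
  rw [bodyA, restA, coreA, map_mul (map _), map_mul (map _), map_mul (map _), map_C, map_pow, map_X,
    map_cA, map_resc, ← coeff_C_mul]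
  simp only [mul_assoc]
  rfl

/-- the space of the recursion -/
abbrev Zk : Spc := (T₁.X n₁).prod ((T₂.X n₂).prod (Bk S k))

/-- the map to the fixed locus -/
def zb : Mor (Zk T₁ T₂ k) (Fx T₁ T₂) := Mor.lift (Mor.fst _ _) ((Mor.fst _ _).comp (Mor.snd _ _))

/-- the change of the order of the factors -/
def th : Mor (Zk T₁ T₂ k) (Wk (Fx T₁ T₂) S k) :=
  Mor.lift (Mor.lift (zb T₁ T₂ k) (((pw S k).comp (Mor.snd _ _)).comp (Mor.snd _ _)))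
    (((qB S k).comp (Mor.snd _ _)).comp (Mor.snd _ _))

/-- the frame -/
abbrev frZ : Frame S (Zk T₁ T₂ k) (Ix k) := fr T₁ false n₁ (fr T₂ true n₂ (fin M (sB S k)))

theorem var_Zk (hS : S.IsVar 2) :
    (Zk T₁ T₂ k).IsVar (v₁ + 2 * n₁ + (v₂ + 2 * n₂ + (2 + 2 + 2 * k))) :=
  Nd.var_prod (T₁.var n₁ le_rfl) (Nd.var_prod (T₂.var n₂ le_rfl) (var_Bk hS k))

theorem push_th (hS : S.IsVar 2) : GH.push (th T₁ T₂ k)
    (fund ℂ _ (v₁ + 2 * n₁ + (v₂ + 2 * n₂ + (2 + 2 + 2 * k)))) =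
      fund ℂ _ (v₁ + 2 * n₁ + (v₂ + 2 * n₂) + 2 * k + (2 + 2)) := by
  have e : v₁ + 2 * n₁ + (v₂ + 2 * n₂) + 2 * k + (2 + 2) =
    v₁ + 2 * n₁ + (v₂ + 2 * n₂ + (2 + 2 + 2 * k)) := by ring
  have a1 : ∀ {V : Spc} (f : Mor V _), (pw S k).comp ((iv S k).comp f) = (Mor.fst _ _).comp f :=
    fun f => by rw [← Ct.assoc, pw_iv]
  have a2 : ∀ {V : Spc} (f : Mor V _), (qB S k).comp ((iv S k).comp f) = (Mor.snd _ _).comp f :=
    fun f => by rw [← Ct.assoc, qB_iv]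
  have a3 : ∀ {V : Spc} (f : Mor V _),
      (iv S k).comp (Mor.lift ((pw S k).comp f) ((qB S k).comp f)) = f :=
    fun f => by rw [← Ct.lift_comp, ← Ct.assoc, iv_lift, Ct.id_comp]
  rw [e]
  refine GH.push_fund_of_inv (var_Zk T₁ T₂ k hS) (var_Wk T₁ T₂ hS k).proj _
    (Mor.lift ((Mor.fst _ _).comp ((Mor.fst _ _).comp (Mor.fst _ _)))
      (Mor.lift ((Mor.snd _ _).comp ((Mor.fst _ _).comp (Mor.fst _ _)))
        ((iv S k).comp (Mor.lift ((Mor.snd _ _).comp (Mor.fst _ _)) (Mor.snd _ _))))) ?_ ?_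
  · simp [th, zb, a1, a2]
  · simp [th, zb, a3]

theorem base_th : (Wk.base _ S k).comp (th T₁ T₂ k) = zb T₁ T₂ k := by simp [Wk.base, th]

theorem sl_th (i : Fin k) : (Wk.sl _ S k (.inl i)).comp (th T₁ T₂ k) =
    (((slot S k i).comp (pw S k)).comp (Mor.snd _ _)).comp (Mor.snd _ _) := by simp [Wk.sl, th]

theorem sl_th' (i : Fin k ⊕ Bool) :
    ∃ j, (Wk.sl _ S k i).comp (th T₁ T₂ k) = (frZ T₁ T₂ k).s j := by
  have h : ∀ {f : Mor (Bk S k) S}, (∃ j, f = sB S k j) →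
      ∃ j, (f.comp (Mor.snd _ _)).comp (Mor.snd _ _) = (frZ T₁ T₂ k).s j := by
    rintro _ ⟨j, rfl⟩; exact ⟨j, rfl⟩
  rcases i with i | _ | _
  · rw [sl_th]; exact h (slot_pw S k i)
  · obtain ⟨j, hj⟩ := h (s0_qB S (some ()) k)
    exact ⟨j, (Ct.snd_lift' _ _ _).trans hj⟩
  · obtain ⟨j, hj⟩ := h (s0_qB S none k)
    exact ⟨j, (Ct.snd_lift' _ _ _).trans hj⟩

theorem zb_E1 : pullK ((zb T₁ T₂ k).map (Mor.id S)) (E1 T₁ T₂) = (frZ T₁ T₂ k).E false := by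
  rw [E1, map_map, zb, Ct.fst_lift, fr_E]

theorem frZ_E : (frZ T₁ T₂ k).E true =
    pullK (((Mor.fst _ _).comp (Mor.snd _ _)).map (Mor.id S)) (T₂.E n₂) := by
  rw [fr_E' T₁ Bool.false_ne_true.symm, fr_E, map_map]

theorem zb_E2 : pullK ((zb T₁ T₂ k).map (Mor.id S)) (E2 T₁ T₂) = (frZ T₁ T₂ k).E true := by
  rw [E2, map_map, zb, Ct.snd_lift, frZ_E]

variable {L : Set (K0 S)}

theorem cin_b (hS : S.IsVar 2) {a b : Bool} (hab : a ≠ b) {E E' : K0 ((Fx T₁ T₂).prod S)}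
    (h : pullK ((zb T₁ T₂ k).map (Mor.id S)) E = (frZ T₁ T₂ k).E a)
    (h' : pullK ((zb T₁ T₂ k).map (Mor.id S)) E' = (frZ T₁ T₂ k).E b) {x : K0 S} (hx : x ∈ L) :
    CIn (((frZ T₁ T₂ k).Taut ℂ L).comap (GA.pull (th T₁ T₂ k))) (pullK (Wk.base _ S k)
      (-dualK _ (pK _ S (dualK _ E * (pullK (Mor.snd _ _) x - E'))))) := by
  refine CIn.comap ?_
  rw [← pullK_comp, base_th, map_neg, pullK_dualK,
    Nd.pK_pull (var_Zk T₁ T₂ k hS) (var_Fx T₁ T₂) hS.proj, map_mul, map_sub, pullK_dualK,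
    map_snd, h, h', mul_sub, map_sub]
  exact ((Frame.Gen.p a x hx).cin.sub (Frame.Gen.q a b hab).cin).dual.neg

theorem cin_at (i : Fin k ⊕ Bool) {a : Bool} {E : K0 ((Fx T₁ T₂).prod S)}
    (h : pullK ((zb T₁ T₂ k).map (Mor.id S)) E = (frZ T₁ T₂ k).E a) :
    CIn (((frZ T₁ T₂ k).Taut ℂ L).comap (GA.pull (th T₁ T₂ k))) (Wk.at k i E) := by
  refine CIn.comap ?_
  obtain ⟨j, hj⟩ := sl_th' T₁ T₂ k i
  have := (Frame.Gen.E (L := L) (Φ := frZ T₁ T₂ k) a j).cin (k := ℂ)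
  rw [← h, ← pullK_comp, gr, Ct.map_def, Ct.lift_comp, Ct.fst_lift', Ct.snd_lift'] at this
  rw [Wk.at, ← pullK_comp, Ct.lift_comp, base_th, hj]
  exact this

theorem rest_mem (hS : S.IsVar 2) (h₁ : L₁ ∈ L) (h₂ : L₂ ∈ L) :
    GA.pull (th T₁ T₂ k) (restA T₁ T₂ k) ∈ (frZ T₁ T₂ k).Taut ℂ L :=
  (Subalgebra.mem_comap _ _ _).1 (((((SIn.xpow _ _).mul
    (cin_b T₁ T₂ k hS Bool.false_ne_true.symm (zb_E2 T₁ T₂ k) (zb_E1 T₁ T₂ k) h₁).sin).mul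
    (cin_b T₁ T₂ k hS Bool.false_ne_true (zb_E1 T₁ T₂ k) (zb_E2 T₁ T₂ k) h₂).sin.resc).mul
    (SIn.prod _ fun i _ => sin_kA (cin_at T₁ T₂ k i (zb_E1 T₁ T₂ k))
      (cin_at T₁ T₂ k i (zb_E2 T₁ T₂ k)))).mul (SIn.xpow _ _) _)

theorem cin_obv (hS : S.IsVar 2) {L₀ M₀ : K0 S} {v n o : ℕ} (T : Tower S L₀ M₀ v n o) {Z : Spc}
    {e : ℕ} (hZ : Z.IsVar e) {ι : Type} (Φ : Frame S Z ι) (f : Mor Z (T.X n)) (a : Bool)
    (hE : Φ.E a = pullK (f.map (Mor.id S)) (T.E n))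
    (hh : Φ.h a = pullK f (pullK (T.p n) (OP v (-1)))) (h : L₀ ∈ L) :
    CIn (Φ.Taut ℂ L) (pullK f (T.obv n)) := by
  rw [Tower.obv, map_sub, map_nsmul, pullK_dualK, Nd.pK_pull hZ (T.var n le_rfl) hS.proj, map_mul,
    pullK_dualK, map_snd, ← hE, ← hh, mul_comm]
  exact ((Frame.Gen.h a).cin.nsmul _).sub (Frame.Gen.p a L₀ h).cin.dual

theorem top1_mem (hS : S.IsVar 2) (h₁ : L₁ ∈ L) (i : ℕ) :
    GA.pull (Mor.fst _ _) (gc ℂ i (T₁.obv n₁)) ∈ (frZ T₁ T₂ k).Taut ℂ L := by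
  rw [pull_gc]
  exact cin_obv hS T₁ (var_Zk T₁ T₂ k hS) _ _ false (fr_E _ _ _ _) (fr_h _ _ _ _) h₁ i

theorem top2_mem (hS : S.IsVar 2) (h₂ : L₂ ∈ L) (i : ℕ) :
    GA.pull (Mor.snd _ _) (GA.pull (Mor.fst _ _) (gc ℂ i (T₂.obv n₂))) ∈
      (frZ T₁ T₂ k).Taut ℂ L := by
  rw [← GA.pull_comp, pull_gc]
  refine cin_obv hS T₂ (var_Zk T₁ T₂ k hS) _ _ true (frZ_E T₁ T₂ k) ?_ h₂ i
  rw [fr_h' T₁ Bool.false_ne_true.symm, fr_h, pullK_comp]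

theorem GamA_eq (hS : S.IsVar 2) (α : GA ℂ S) : GamA T₁ T₂ (fun _ : Fin k => α) =
    ((-1 : ℤ) ^ (rk _ (bM T₁ T₂)).natAbs) • GH.push (qB S k) (AB α k •
      GH.push (Mor.snd _ _) (GH.push (Mor.snd _ _)
        ((GA.pull (Mor.fst _ _) (gc ℂ (o₁ + n₁) (T₁.obv n₁)) *
          (GA.pull (Mor.snd _ _) (GA.pull (Mor.fst _ _) (gc ℂ (o₂ + n₂) (T₂.obv n₂))) *
            GA.pull (th T₁ T₂ k) (restA T₁ T₂ k))) • fund ℂ (Zk T₁ T₂ k)
          (v₁ + 2 * n₁ + (v₂ + 2 * n₂ + (2 + 2 + 2 * k)))))) := by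
  have hZ := (var_Zk T₁ T₂ k hS).proj
  have hW := (var_Wk T₁ T₂ hS k).proj
  have hB := (var_Bk hS k).proj
  have hP := (Nd.var_prod hS hS).proj
  have hY := (Nd.var_prod (T₂.var n₂ le_rfl) (var_Bk hS k)).proj
  have e1 : GA.pull (th T₁ T₂ k) (∏ i, GA.pull (Wk.sl _ S k (.inl i)) α) =
      GA.pull (Mor.snd _ _) (GA.pull (Mor.snd _ _) (AB α k)) := by
    rw [← prod_slot, map_prod, map_prod, map_prod]
    exact Finset.prod_congr rfl fun i _ => by rw [← GA.pull_comp, sl_th]; rfl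
  have e2 : GA.pull (th T₁ T₂ k) (GA.pull (Wk.base _ S k) (topA ℂ T₁ T₂)) =
      GA.pull (Mor.fst _ _) (gc ℂ (o₁ + n₁) (T₁.obv n₁)) *
        GA.pull (Mor.snd _ _) (GA.pull (Mor.fst _ _) (gc ℂ (o₂ + n₂) (T₂.obv n₂))) := by
    rw [← GA.pull_comp, base_th, topA, map_mul, ← GA.pull_comp, ← GA.pull_comp, zb, Ct.fst_lift,
      Ct.snd_lift]
    rfl
  rw [GamA, ← push_th T₁ T₂ k hS, ← GH.push_proj hZ hW, ← GH.push_comp hZ hW hP, bodyA_eq,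
    map_mul, map_mul, e1, e2, mul_assoc, mul_smul, ← GH.push_proj hY hB, ← GH.push_proj hZ hY,
    ← GH.push_comp hY hB hP, ← GH.push_comp hZ hY hP, th, Ct.snd_lift]

theorem gam_TS (D : DG S) (hL : ∀ M ∈ L, IsCls M 1) (hom : D.om ∈ L) (h₁ : L₁ ∈ L) (h₂ : L₂ ∈ L)
    {R : Subalgebra ℂ (GA ℂ S)} (hR : Ge S 2 ≤ R.toSubmodule) (hO : CIn R D.Om)
    (hLR : ∀ x ∈ L, CIn R x) (hM : ∀ a, CIn R (M a)) : ∃ μ ∈ TS R (sB S k),
      ∀ (α : GA ℂ S) (T : GH ℂ (S.prod S) →ₗ[ℂ] ℂ),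
        T (GamA T₁ T₂ fun _ : Fin k => α) = EV α T k μ := by
  have hS := D.var
  obtain ⟨μ, h1, h2⟩ := pass T₁ T₂ D hL hom hR hO hLR hM (var_Bk hS k) (sB S k)
    (mul_mem (top1_mem T₁ T₂ k hS h₁ (o₁ + n₁))
      (mul_mem (top2_mem T₁ T₂ k hS h₂ (o₂ + n₂)) (rest_mem T₁ T₂ k hS h₁ h₂)))
  refine ⟨((-1 : ℤ) ^ (rk _ (bM T₁ T₂)).natAbs) • μ, zsmul_mem h1 _, fun α T => ?_⟩
  rw [GamA_eq T₁ T₂ k hS, h2, map_zsmul, map_zsmul, EV_apply, mul_smul]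

theorem gam_zero (D : DG S) (hL : ∀ M ∈ L, IsCls M 1) (hom : D.om ∈ L) (h₁ : L₁ ∈ L)
    (h₂ : L₂ ∈ L) (hv : v₁ < o₁ ∨ v₂ < o₂) (α : GA ℂ S) :
    GamA T₁ T₂ (fun _ : Fin k => α) = 0 := by
  have hS := D.var
  have hY := Nd.var_prod (T₂.var n₂ le_rfl) (var_Bk hS k)
  rw [GamA_eq T₁ T₂ k hS]
  rcases hv with hv | hv
  · rw [van_tower T₁ D hL hom h₁ hv false n₁ le_rfl hY _ _
      (mul_mem (top2_mem T₁ T₂ k hS h₂ (o₂ + n₂)) (rest_mem T₁ T₂ k hS h₁ h₂)),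
      map_zero, smul_zero, map_zero, smul_zero]
  · rw [mul_left_comm, mul_smul, GH.push_proj (var_Zk T₁ T₂ k hS).proj hY.proj,
      van2 T₁ T₂ D hL hom h₂ hv (var_Bk hS k) _
        (mul_mem (top1_mem T₁ T₂ k hS h₁ (o₁ + n₁)) (rest_mem T₁ T₂ k hS h₁ h₂)),
      smul_zero, map_zero, smul_zero]

end Vale.Agent.P297Z.Sh
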