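import Vale.Agent.P297Z.Gd.Chern

/-!
# P297: classes whose Chern classes lie in a subalgebra
-/

set_option linter.all false

noncomputable section

namespace Vale.Agent.P297Z.Sh

open PowerSeries

section alg

variable {k A : Type*} [CommRing k] [CommRing A] [Algebra k A] {T : Subalgebra k A}

/-- all coefficients lie in `T` -/
def SIn (T : Subalgebra k A) (s : A⟦X⟧) : Prop := ∀ i, coeff i s ∈ T

namespace SIn

variable {s t : A⟦X⟧}

theorem one : SIn T 1 := fun i => by
  rw [coeff_one]
  split_ifs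
  · exact one_mem _
  · exact zero_mem _

theorem add (hs : SIn T s) (ht : SIn T t) : SIn T (s + t) := fun i => by
  rw [map_add]; exact add_mem (hs i) (ht i)

theorem mul (hs : SIn T s) (ht : SIn T t) : SIn T (s * t) := fun i => by
  rw [coeff_mul]
  exact sum_mem fun p _ => mul_mem (hs _) (ht _)

theorem prod {ι : Type*} (u : Finset ι) {f : ι → A⟦X⟧} (h : ∀ i ∈ u, SIn T (f i)) :
    SIn T (∏ i ∈ u, f i) := Finset.prod_induction f (SIn T) (fun _ _ => mul) one h

theorem mono {a : A} (ha : a ∈ T) (n : ℕ) : SIn T (C a * X ^ n) := fun i => by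
  rw [coeff_C_mul, coeff_X_pow]
  split_ifs
  · rw [mul_one]; exact ha
  · rw [mul_zero]; exact zero_mem _

theorem mono1 {a : A} (ha : a ∈ T) : SIn T (C a * X) := by simpa using mono ha 1

theorem resc (hs : SIn T s) : SIn T (rescale (-1) s) := fun i => by
  rw [coeff_rescale]
  exact mul_mem (pow_mem (neg_mem (one_mem _)) _) (hs i)

theorem inv (hs : SIn T s) (h0 : coeff 0 s = 1) (h : t * s = 1) : SIn T t := fun i => by
  induction i using Nat.strong_induction_on with
  | _ i ih =>
    have h1 := congrArg (coeff i) h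
    rw [coeff_mul, Finset.Nat.sum_antidiagonal_eq_sum_range_succ_mk, Finset.sum_range_succ,
      Nat.sub_self, h0, mul_one] at h1
    rw [eq_sub_of_add_eq' h1]
    exact sub_mem (one i) (sum_mem fun j hj => mul_mem (ih j (Finset.mem_range.1 hj)) (hs _))

end SIn

/-- elements of the algebra generated by `T` and `ξ` -/
theorem sup_ind (T : Subalgebra k A) (ξ : A) (P : Submodule k A)
    (h : ∀ t ∈ T, ∀ i : ℕ, t * ξ ^ i ∈ P) : ∀ x ∈ T ⊔ Algebra.adjoin k {ξ}, x ∈ P := by
  let Q : Submodule k A := Submodule.span k {x | ∃ t ∈ T, ∃ i : ℕ, x = t * ξ ^ i}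
  have hQ : Q ≤ P := Submodule.span_le.2 (by rintro _ ⟨t, ht, i, rfl⟩; exact h t ht i)
  have hmul : Q * Q ≤ Q := by
    rw [Submodule.span_mul_span, Submodule.span_le]
    rintro _ ⟨_, ⟨t, ht, i, rfl⟩, _, ⟨t', ht', j, rfl⟩, rfl⟩
    exact Submodule.subset_span ⟨t * t', mul_mem ht ht', i + j, by ring⟩
  let Q' : Subalgebra k A := Q.toSubalgebra
    (Submodule.subset_span ⟨1, one_mem _, 0, by ring⟩)
    fun x y hx hy => hmul (Submodule.mul_mem_mul hx hy)
  have : T ⊔ Algebra.adjoin k {ξ} ≤ Q' := sup_le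
    (fun t ht => Submodule.subset_span ⟨t, ht, 0, by ring⟩)
    (Algebra.adjoin_le (by
      rintro _ rfl
      exact Submodule.subset_span ⟨1, one_mem _, 1, by ring⟩))
  exact fun x hx => hQ (this hx)

/-- a submodule that contains `1` and is stable under the generators contains the algebra -/
theorem adjoin_ind (s : Set A) (P : Submodule k A) (h1 : (1 : A) ∈ P)
    (h : ∀ g ∈ s, ∀ x ∈ P, g * x ∈ P) : ∀ x ∈ Algebra.adjoin k s, x ∈ P := by
  have : ∀ x ∈ Algebra.adjoin k s, ∀ y ∈ P, x * y ∈ P := fun x hx => by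
    induction hx using Algebra.adjoin_induction with
    | mem g hg => exact h g hg
    | algebraMap c => intro y hy; rw [← Algebra.smul_def]; exact P.smul_mem c hy
    | add a b _ _ ha hb => intro y hy; rw [add_mul]; exact add_mem (ha y hy) (hb y hy)
    | mul a b _ _ ha hb => intro y hy; rw [mul_assoc]; exact ha _ (hb y hy)
  exact fun x hx => by simpa using this x hx 1 h1

end alg

variable {V W : Spc} {k : Type} [CommRing k]

theorem gmul_smul (x y : GA k W) (g : GH k W) : (x * y) • g = x • y • g := by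
  rw [GA.smul_def, GA.smul_def, GA.smul_def, map_mul]; rfl

/-- all Chern classes lie in `T` -/
def CIn (T : Subalgebra k (GA k W)) (x : K0 W) : Prop := ∀ i, gc k i x ∈ T

namespace CIn

variable {T : Subalgebra k (GA k W)} {x y l : K0 W}

theorem sin (h : CIn T x) : SIn T (cA k x) := fun i => by rw [coeff_cA]; exact h i

theorem of_sin (h : SIn T (cA k x)) : CIn T x := fun i => by rw [← coeff_cA]; exact h i

theorem le {T' : Subalgebra k (GA k W)} (h : CIn T x) (h' : T ≤ T') : CIn T' x := fun i => h' (h i)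

theorem zero : CIn T 0 := of_sin (by rw [cA_zero]; exact SIn.one)

theorem one : CIn T 1 := of_sin (by rw [cA_one]; exact SIn.one)

theorem add (hx : CIn T x) (hy : CIn T y) : CIn T (x + y) :=
  of_sin (by rw [cA_add]; exact hx.sin.mul hy.sin)

theorem neg (hx : CIn T x) : CIn T (-x) :=
  of_sin (hx.sin.inv (by rw [coeff_cA, gc_zero]) (cA_neg_mul x))

theorem sub (hx : CIn T x) (hy : CIn T y) : CIn T (x - y) := by
  rw [sub_eq_add_neg]; exact hx.add hy.neg

theorem nsmul (hx : CIn T x) (n : ℕ) : CIn T (n • x) := by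
  induction n with
  | zero => rw [zero_smul]; exact zero
  | succ n ih => rw [succ_nsmul]; exact ih.add hx

theorem zsmul (hx : CIn T x) (n : ℤ) : CIn T (n • x) := by
  rcases Int.eq_nat_or_neg n with ⟨m, rfl | rfl⟩
  · rw [natCast_zsmul]; exact hx.nsmul m
  · rw [neg_smul, natCast_zsmul]; exact (hx.nsmul m).neg

theorem intCast (n : ℤ) : CIn T (n : K0 W) := by
  rw [← zsmul_one]; exact one.zsmul n

theorem dual (hx : CIn T x) : CIn T (dualK W x) :=
  of_sin (by rw [cA_dual]; exact hx.sin.resc)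

theorem twist (hl : IsCls l 1) (h : CIn T l) (hx : CIn T x) : CIn T (l * x) := fun i => by
  rw [gc_twist hl]
  exact sum_mem fun j _ => zsmul_mem (mul_mem (pow_mem (h 1) _) (hx j)) _

theorem of_line (hl : IsCls l 1) (h : gc k 1 l ∈ T) : CIn T l :=
  of_sin (by rw [hl.cA_eq]; exact SIn.one.add (SIn.mono1 h))

theorem pull (hx : CIn T x) (f : Mor V W) {T' : Subalgebra k (GA k V)}
    (h : ∀ t ∈ T, GA.pull f t ∈ T') : CIn T' (pullK f x) := fun i => by
  rw [← pull_gc]; exact h _ (hx i)

end CIn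

variable (k) in
/-- the classes `μ [W]`, `μ` in `T` -/
def Cl (T : Subalgebra k (GA k W)) (n : ℕ) : Submodule k (GH k W) where
  carrier := {x | ∃ μ ∈ T, x = μ • fund k W n}
  add_mem' := by
    rintro _ _ ⟨a, ha, rfl⟩ ⟨b, hb, rfl⟩
    exact ⟨a + b, add_mem ha hb, (add_smul _ _ _).symm⟩
  zero_mem' := ⟨0, zero_mem _, (zero_smul _ _).symm⟩
  smul_mem' := by
    rintro c _ ⟨a, ha, rfl⟩
    exact ⟨c • a, T.smul_mem ha c, (smul_assoc _ _ _).symm⟩

theorem mem_Cl {T : Subalgebra k (GA k W)} {n : ℕ} {μ : GA k W} (h : μ ∈ T) :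
    μ • fund k W n ∈ Cl k T n := ⟨μ, h, rfl⟩

variable (k) in
/-- the map `μ ↦ μ x` -/
def cap (x : GH k W) : GA k W →ₗ[k] GH k W where
  toFun μ := μ • x
  map_add' a b := add_smul a b x
  map_smul' c a := smul_assoc c a x

theorem cap_apply (x : GH k W) (μ : GA k W) : cap k x μ = μ • x := rfl

end Vale.Agent.P297Z.Sh
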