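import Vale.Agent.P297Z.Sh.Frame

/-!
# P297: integration over a slot
-/

set_option linter.all false

noncomputable section

namespace Vale.Agent.P297Z.Sh

attribute [local simp] Ct.assoc Ct.lift_comp Ct.fst_lift Ct.snd_lift Ct.id_comp Ct.comp_id
  Ct.map_def Ct.lift_eta Ct.lift_eta'

variable {S B V W Y : Spc} {ι κ : Type}

/-- the classes of degree at least `n` -/
def Ge (S : Spc) (n : ℕ) : Submodule ℂ (GA ℂ S) :=
  Submodule.span ℂ {x | ∃ i a, n ≤ i ∧ a ∈ FF S i ∧ x = amk ℂ i a}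

theorem amk_mem_Ge {n i : ℕ} (h : n ≤ i) {a : K0 S} (ha : a ∈ FF S i) : amk ℂ i a ∈ Ge S n :=
  Submodule.subset_span ⟨i, a, h, ha, rfl⟩

theorem gc_mem_Ge {n i : ℕ} (h : n ≤ i) (a : K0 S) : gc ℂ i a ∈ Ge S n :=
  amk_mem_Ge h (Nd.cc_mem_FF i a)

theorem Ge_le {n : ℕ} {P : Submodule ℂ (GA ℂ S)}
    (h : ∀ i a, n ≤ i → a ∈ FF S i → amk ℂ i a ∈ P) : Ge S n ≤ P :=
  Submodule.span_le.2 (by rintro _ ⟨i, a, h1, h2, rfl⟩; exact h i a h1 h2)

theorem Ge_anti {n m : ℕ} (h : n ≤ m) : Ge S m ≤ Ge S n :=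
  Ge_le fun _ _ h1 h2 => amk_mem_Ge (h.trans h1) h2

theorem mem_Ge_zero (x : GA ℂ S) : x ∈ Ge S 0 :=
  GA.induction (fun _ _ h => amk_mem_Ge (Nat.zero_le _) h) (fun _ _ => add_mem)
    (fun c _ h => Submodule.smul_mem _ c h) x

theorem Ge_mul {n m : ℕ} {x y : GA ℂ S} (hx : x ∈ Ge S n) (hy : y ∈ Ge S m) :
    x * y ∈ Ge S (n + m) := by
  have : Ge S n * Ge S m ≤ Ge S (n + m) := by
    rw [Ge, Ge, Submodule.span_mul_span, Submodule.span_le]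
    rintro _ ⟨_, ⟨i, a, h1, h2, rfl⟩, _, ⟨j, b, h3, h4, rfl⟩, rfl⟩
    change amk ℂ i a * amk ℂ j b ∈ Ge S (n + m)
    rw [← amk_mul h2 h4]
    exact amk_mem_Ge (add_le_add h1 h3) (Gd.FF_mul h2 h4)
  exact this (Submodule.mul_mem_mul hx hy)

theorem Ge_mul_left {n : ℕ} (x : GA ℂ S) {y : GA ℂ S} (hy : y ∈ Ge S n) : x * y ∈ Ge S n := by
  simpa using Ge_mul (mem_Ge_zero x) hy

theorem Ge_mul_right {n : ℕ} {x : GA ℂ S} (hx : x ∈ Ge S n) (y : GA ℂ S) : x * y ∈ Ge S n := by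
  rw [mul_comm]; exact Ge_mul_left y hx

theorem Ge_fund {n d : ℕ} (h : d < n) {x : GA ℂ S} (hx : x ∈ Ge S n) : x • fund ℂ S d = 0 :=
  Ge_le (P := LinearMap.ker (cap ℂ (fund ℂ S d)))
    (fun _ a h1 _ => amk_fund_lt a (h.trans_le h1)) hx

theorem exists_Ge_one (x : GA ℂ S) : ∃ c : ℂ, ∃ y ∈ Ge S 1, x = c • 1 + y := by
  induction x using GA.induction with
  | hm i a ha =>
    rcases Nat.eq_zero_or_pos i with rfl | hi
    · refine ⟨(rk S a : ℤ), 0, zero_mem _, ?_⟩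
      rw [add_zero, Int.cast_smul_eq_zsmul, zsmul_one, ← amk_intCast]
      refine amk_congr (Gd.mem_FF_zero _) ?_
      have := neg_mem (sub_mem_FF_one a)
      rwa [neg_sub] at this
    · exact ⟨0, _, amk_mem_Ge hi ha, by rw [zero_smul, zero_add]⟩
  | ha x y hx hy =>
    obtain ⟨c, u, hu, rfl⟩ := hx
    obtain ⟨c', u', hu', rfl⟩ := hy
    exact ⟨c + c', u + u', add_mem hu hu', by rw [add_smul]; abel⟩
  | hs c x hx =>
    obtain ⟨c', u, hu, rfl⟩ := hx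
    exact ⟨c * c', c • u, Submodule.smul_mem _ c hu, by rw [smul_add, smul_smul]⟩

/-- a class of degree two sees only the constant term -/
theorem exists_top (x : GA ℂ S) : ∃ c : ℂ, ∀ ξ ∈ Ge S 2,
    (ξ * x) • fund ℂ S 2 = c • ξ • fund ℂ S 2 := by
  obtain ⟨c, y, hy, rfl⟩ := exists_Ge_one x
  refine ⟨c, fun ξ hξ => ?_⟩
  rw [mul_add, add_smul, Ge_fund (by omega) (Ge_mul hξ hy), add_zero, mul_smul_comm, mul_one,
    smul_assoc]

theorem deg_top {ξ : GA ℂ S} (hξ : ξ ∈ Ge S 2) (h : GH.deg (ξ • fund ℂ S 2) = 0) (x : GA ℂ S) :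
    GH.deg ((ξ * x) • fund ℂ S 2) = 0 := by
  obtain ⟨c, hc⟩ := exists_top x
  rw [hc ξ hξ, LinearMap.map_smul, h, smul_zero]

/-- the algebra given by the classes of `R` at the slots and by the diagonals -/
def TS (R : Subalgebra ℂ (GA ℂ S)) (s : ι → Mor B S) : Subalgebra ℂ (GA ℂ B) :=
  Algebra.adjoin ℂ ({x | ∃ j, ∃ ρ ∈ R, x = GA.pull (s j) ρ} ∪
    {x | ∃ j j', x = gc ℂ 2 (dd (s j) (s j'))})

variable {R : Subalgebra ℂ (GA ℂ S)}

theorem pull_mem_TS (s : ι → Mor B S) (j : ι) {ρ : GA ℂ S} (h : ρ ∈ R) :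
    GA.pull (s j) ρ ∈ TS R s := Algebra.subset_adjoin (Or.inl ⟨j, ρ, h, rfl⟩)

theorem dd_mem_TS (s : ι → Mor B S) (j j' : ι) : gc ℂ 2 (dd (s j) (s j')) ∈ TS R s :=
  Algebra.subset_adjoin (Or.inr ⟨j, j', rfl⟩)

theorem TS_le {s : ι → Mor B S} {T : Subalgebra ℂ (GA ℂ B)}
    (h1 : ∀ j, ∀ ρ ∈ R, GA.pull (s j) ρ ∈ T) (h2 : ∀ j j', gc ℂ 2 (dd (s j) (s j')) ∈ T) :
    TS R s ≤ T := Algebra.adjoin_le (by
  rintro _ (⟨j, ρ, h, rfl⟩ | ⟨j, j', rfl⟩)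
  · exact h1 j ρ h
  · exact h2 j j')

theorem TS_top (s : ι → Mor B S) : TS R s ≤ TS ⊤ s :=
  TS_le (fun j _ _ => pull_mem_TS s j Algebra.mem_top) (dd_mem_TS s)

theorem TS_pull (f : Mor V B) {s : ι → Mor B S} {s' : κ → Mor V S}
    (h : ∀ j, ∃ j', (s j).comp f = s' j') {μ : GA ℂ B} (hμ : μ ∈ TS R s) :
    GA.pull f μ ∈ TS R s' := by
  refine (Subalgebra.mem_comap _ _ _).1 (TS_le (T := (TS R s').comap (GA.pull f))
    (fun j ρ hρ => ?_) (fun j j' => ?_) hμ)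
  · obtain ⟨a, ha⟩ := h j
    rw [Subalgebra.mem_comap, ← GA.pull_comp, ha]
    exact pull_mem_TS s' a hρ
  · obtain ⟨a, ha⟩ := h j
    obtain ⟨b, hb⟩ := h j'
    rw [Subalgebra.mem_comap, pull_gc, pull_dd, ha, hb]
    exact dd_mem_TS s' a b

theorem dd_self (s : Mor B S) :
    gc ℂ 2 (dd s s) = GA.pull s (gc ℂ 2 (dd (Mor.id S) (Mor.id S))) := by
  rw [pull_gc, pull_dd]; rfl

/-- one more slot -/
def ext (s : ι → Mor B S) : Option ι → Mor (B.prod S) S :=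
  fun j => j.elim (Mor.snd B S) fun j => (s j).comp (Mor.fst B S)

theorem fst_mem {s : ι → Mor B S} {μ : GA ℂ B} (h : μ ∈ TS R s) :
    GA.pull (Mor.fst B S) μ ∈ TS R (ext s) := TS_pull _ (fun j => ⟨some j, rfl⟩) h

theorem snd_mem (s : ι → Mor B S) {ρ : GA ℂ S} (h : ρ ∈ R) :
    GA.pull (Mor.snd B S) ρ ∈ TS R (ext s) := pull_mem_TS (ext s) none h

theorem gr_mem {s : ι → Mor B S} (j : ι) {x : GA ℂ (B.prod S)} (h : x ∈ TS R (ext s)) :
    GA.pull (gr (s j)) x ∈ TS R s := by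
  refine TS_pull _ (fun a => ?_) h
  cases a with
  | none => exact ⟨j, Ct.snd_lift _ _⟩
  | some a => exact ⟨a, Ct.fst_lift' _ _ _⟩

theorem elim_ind (D : DG S) (hR : Ge S 2 ≤ R.toSubmodule) (s : ι → Mor B S)
    (P : Submodule ℂ (GA ℂ (B.prod S)))
    (ha : ∀ ρ ∈ R, ∀ μ ∈ TS R s, GA.pull (Mor.snd B S) ρ * GA.pull (Mor.fst B S) μ ∈ P)
    (hc : ∀ j x, GA.pull (gr (s j)) x ∈ TS R s → gc ℂ 2 (dS (s j)) * x ∈ P) :
    ∀ μ ∈ TS R (ext s), μ ∈ P := by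
  let Q : Submodule ℂ (GA ℂ (B.prod S)) := Submodule.span ℂ
    ({y | ∃ ρ ∈ R, ∃ μ ∈ TS R s, y = GA.pull (Mor.snd B S) ρ * GA.pull (Mor.fst B S) μ} ∪
      {y | ∃ j, ∃ x ∈ TS R (ext s), y = gc ℂ 2 (dS (s j)) * x})
  have hQ : Q ≤ P := Submodule.span_le.2 (by
    rintro _ (⟨ρ, hρ, μ, hμ, rfl⟩ | ⟨j, x, hx, rfl⟩)
    · exact ha ρ hρ μ hμ
    · exact hc j x (gr_mem j hx))
  have q1 : ∀ ρ ∈ R, ∀ μ ∈ TS R s, GA.pull (Mor.snd B S) ρ * GA.pull (Mor.fst B S) μ ∈ Q :=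
    fun ρ hρ μ hμ => Submodule.subset_span (Or.inl ⟨ρ, hρ, μ, hμ, rfl⟩)
  have q2 : ∀ j, ∀ x ∈ TS R (ext s), gc ℂ 2 (dS (s j)) * x ∈ Q :=
    fun j x hx => Submodule.subset_span (Or.inr ⟨j, x, hx, rfl⟩)
  refine fun μ hμ => hQ (adjoin_ind _ Q ?_ (fun g hg y hy => ?_) μ hμ)
  · simpa using q1 1 (one_mem _) 1 (one_mem _)
  have hg' : g ∈ TS R (ext s) := Algebra.subset_adjoin hg
  refine (Submodule.span_le (p := Q.comap (LinearMap.mulLeft ℂ g))).2 ?_ hy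
  rintro _ (⟨ρ, hρ, μ, hμ, rfl⟩ | ⟨j, x, hx, rfl⟩)
  · change g * _ ∈ Q
    have k1 : ∀ ρ' ∈ R, GA.pull (Mor.snd B S) ρ' *
        (GA.pull (Mor.snd B S) ρ * GA.pull (Mor.fst B S) μ) ∈ Q := fun ρ' h => by
      rw [← mul_assoc, ← map_mul]; exact q1 _ (mul_mem h hρ) μ hμ
    have k2 : ∀ μ' ∈ TS R s, GA.pull (Mor.fst B S) μ' *
        (GA.pull (Mor.snd B S) ρ * GA.pull (Mor.fst B S) μ) ∈ Q := fun μ' h => by
      rw [mul_left_comm, ← map_mul]; exact q1 _ hρ _ (mul_mem h hμ)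
    have k3 := fun j => q2 j _ (mul_mem (snd_mem s hρ) (fst_mem hμ))
    rcases hg with ⟨j, ρ', h, rfl⟩ | ⟨j, j', rfl⟩
    · cases j with
      | none => exact k1 ρ' h
      | some j => exact k2 _ (pull_mem_TS s j h)
    · cases j with
      | none =>
        cases j' with
        | none => rw [dd_self]; exact k1 _ (hR (gc_mem_Ge le_rfl _))
        | some j' => rw [D.dd_symm]; exact k3 j'
      | some j =>
        cases j' with
        | none => exact k3 j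
        | some j' =>
          have := k2 _ (dd_mem_TS s j j')
          rwa [pull_gc, pull_dd] at this
  · change g * _ ∈ Q
    rw [mul_left_comm]
    exact q2 j _ (mul_mem hg' hx)

theorem push_prod (hS : S.IsVar 2) {e : ℕ} (hB : B.IsVar e) (ρ : GA ℂ S) (μ : GA ℂ B) :
    GH.push (Mor.fst B S) ((GA.pull (Mor.snd B S) ρ * GA.pull (Mor.fst B S) μ) •
      fund ℂ (B.prod S) (e + 2)) = GH.deg (ρ • fund ℂ S 2) • μ • fund ℂ B e := by
  rw [mul_comm, mul_smul, GH.push_proj (Nd.var_prod hB hS).proj hB.proj, GH.push_fst_fund hS hB,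
    smul_comm]

theorem DG.push_dS (D : DG S) {e : ℕ} (hB : B.IsVar e) (hY : Y.IsProj) (f : Mor (B.prod S) Y)
    (s : Mor B S) (x : GA ℂ (B.prod S)) :
    GH.push f ((gc ℂ 2 (dS s) * x) • fund ℂ (B.prod S) (e + 2)) =
      -GH.push (f.comp (gr s)) (GA.pull (gr s) x • fund ℂ B e) := by
  have hP := (Nd.var_prod hB D.var).proj
  rw [GH.push_comp hB.proj hP hY, GH.push_proj hB.proj hP, ← D.c2 hB s, ← mul_smul, mul_neg,
    neg_smul, map_neg, neg_neg, mul_comm]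

theorem DG.push_fst_dS (D : DG S) {e : ℕ} (hB : B.IsVar e) (s : Mor B S) (x : GA ℂ (B.prod S)) :
    GH.push (Mor.fst B S) ((gc ℂ 2 (dS s) * x) • fund ℂ (B.prod S) (e + 2)) =
      -(GA.pull (gr s) x • fund ℂ B e) := by
  rw [D.push_dS hB hB.proj, gr, Ct.fst_lift, GH.push_id hB.proj]

theorem elim0 (D : DG S) (hR : Ge S 2 ≤ R.toSubmodule) {e : ℕ} (hB : B.IsVar e)
    (s : ι → Mor B S) {μ : GA ℂ (B.prod S)} (hμ : μ ∈ TS R (ext s)) :
    GH.push (Mor.fst B S) (μ • fund ℂ (B.prod S) (e + 2)) ∈ Cl ℂ (TS R s) e := by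
  refine elim_ind D hR s ((Cl ℂ (TS R s) e).comap ((GH.push (Mor.fst B S)).comp
    (cap ℂ (fund ℂ (B.prod S) (e + 2))))) (fun ρ _ μ hμ => ?_) (fun j x hx => ?_) μ hμ
  · rw [Submodule.mem_comap, LinearMap.comp_apply, cap_apply, push_prod D.var hB]
    exact Submodule.smul_mem _ _ (mem_Cl hμ)
  · rw [Submodule.mem_comap, LinearMap.comp_apply, cap_apply, D.push_fst_dS hB]
    exact neg_mem (mem_Cl hx)

/-! ### the last frame -/

/-- the frame after the two recursions -/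
def fin (M : Bool → K0 S) (s : ι → Mor B S) : Frame S B ι :=
  ⟨fun a => pullK (Mor.snd B S) (M a), fun _ => 1, s⟩

theorem fin_more (M : Bool → K0 S) (s : ι → Mor B S) :
    ((fin M s).pull (Mor.fst B S)).more (Mor.snd B S) = fin M (ext s) :=
  Frame.ext (funext fun _ => map_snd _ _) (funext fun _ => map_one _) rfl

theorem cin_of (hR : Ge S 2 ≤ R.toSubmodule) {x : K0 S} (h : gc ℂ 1 x ∈ R) : CIn R x
  | 0 => by rw [gc_zero]; exact one_mem _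
  | 1 => h
  | _ + 2 => hR (gc_mem_Ge (Nat.le_add_left _ _) _)

theorem fin_le (D : DG S) (hO : CIn R D.Om) {L : Set (K0 S)} (hL : ∀ x ∈ L, CIn R x)
    {M : Bool → K0 S} (hM : ∀ a, CIn R (M a)) {e : ℕ} (hB : B.IsVar e) (s : ι → Mor B S) :
    (fin M s).Taut ℂ L ≤ TS R s := by
  have hp : ∀ x y, CIn (TS R s) (pK B S (dualK _ (pullK (Mor.snd B S) x) *
      pullK (Mor.snd B S) y)) := fun x y => by
    rw [← pullK_dualK, ← map_mul, Nd.pK_snd hB D.var.proj]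
    exact CIn.intCast _
  have hs : ∀ j {x}, CIn R x → CIn (TS R s) (pullK (s j) x) := fun j x hx =>
    hx.pull _ fun _ => pull_mem_TS s j
  refine Frame.taut_le fun g hg => ?_
  cases hg with
  | h a => exact CIn.one
  | E a j =>
    change CIn _ (pullK (gr (s j)) (pullK (Mor.snd B S) (M a)))
    rw [gr_snd]; exact hs j (hM a)
  | M j x hx => exact hs j (hL x hx)
  | d j j' _ =>
    rintro (_ | _ | i)
    · rw [gc_zero]; exact one_mem _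
    · rw [zero_add, D.dd_one]; exact zero_mem _
    · rw [D.dd_add]
      exact mul_mem (dd_mem_TS s j j') (pull_mem_TS s j (hO.neg i))
  | p a x _ => exact hp _ _
  | q a b _ => exact hp _ _

end Vale.Agent.P297Z.Sh
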