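import Vale.Agent.P297Z.Sh.Step
import Vale.Agent.P297Z.Sh.Elim

/-!
# P297: the two recursions
-/

set_option linter.all false

noncomputable section

namespace Vale.Agent.P297Z.Sh

attribute [local simp] Ct.assoc Ct.lift_comp Ct.fst_lift Ct.snd_lift Ct.id_comp Ct.comp_id
  Ct.map_def Ct.lift_eta Ct.lift_eta'

variable {S B V W Y Y' : Spc} {ι κ : Type} {L : Set (K0 S)}

section one

variable {L₀ M : K0 S} {v n₀ o₀ : ℕ} (T : Tower S L₀ M v n₀ o₀)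

theorem tower_step1 (D : DG S) (hL : ∀ M ∈ L, IsCls M 1) (hom : D.om ∈ L) (c : Bool) {n : ℕ}
    (hn : n < n₀) {e : ℕ} (hY : Y.IsVar e) (hY' : Y'.IsVar (e + 2)) {u : Mor Y' Y} {σ : Mor Y' S}
    (hp : IsPr u σ) (Ψ : Frame S Y ι) {μ : GA ℂ _} (hμ : μ ∈ (fr T c (n + 1) Ψ).Taut ℂ L) :
    ∃ μ' ∈ (fr T c n ((Ψ.pull u).more σ)).Taut ℂ L,
      GH.push (Mor.snd _ Y) (μ • fund ℂ ((T.X (n + 1)).prod Y) (v + 2 * (n + 1) + e)) =
        GH.push u (GH.push (Mor.snd _ Y')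
          (μ' • fund ℂ ((T.X n).prod Y') (v + 2 * n + (e + 2)))) := by
  obtain ⟨μ', h1, h2⟩ := tower_step T D hL hom c hn hY hY' hp Ψ hμ (ω' := 1) (ω := 1) (θ := 1)
    (by rw [map_one, map_one, mul_one]) fun Q _ _ => one_mem Q
  rw [map_one, map_one, one_mul, one_mul] at h2
  exact ⟨μ', h1, h2⟩

theorem obv_step (D : DG S) {n : ℕ} (hn : n < n₀) : pullK (T.ρ n) (T.obv (n + 1)) =
    pullK ((Mor.fst _ _).comp (T.π n)) (T.obv n) + T.l n *
      dualK _ (pullK ((Mor.snd _ _).comp (T.π n)) D.om * pullK ((Mor.snd _ _).comp (T.π n)) L₀) := by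
  have hN := T.varN n hn
  have hS := D.var.proj
  have h := D.d2 hN ((Mor.snd _ _).comp (T.π n)) (pullK (Mor.snd _ S) L₀)
  rw [gr_snd] at h
  have h2 : pK (T.N n) S (pullK ((T.ρ n).map (Mor.id S))
      (pullK (Mor.snd _ _) L₀ * dualK _ (T.E (n + 1)))) =
      pK (T.N n) S (pullK (((Mor.fst _ _).comp (T.π n)).map (Mor.id S))
        (pullK (Mor.snd _ _) L₀ * dualK _ (T.E n))) - dualK _ (T.l n) *
      (pullK ((Mor.snd _ _).comp (T.π n)) D.om * pullK ((Mor.snd _ _).comp (T.π n)) L₀) := by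
    rw [← h, ← Nd.pK_mul hN hS, ← map_sub, map_mul (pullK _), map_mul (pullK _), pullK_dualK,
      pullK_dualK, pullK_dualK, map_snd, map_snd, T.step n hn, map_sub (dualK _),
      map_mul (dualK _)]
    congr 1
    change _ * (_ - _ * dualK _ (dS _)) = _
    ring
  rw [Tower.obv, Tower.obv, map_sub, map_sub, map_nsmul, map_nsmul, ← pullK_comp, ← pullK_comp,
    pullK_homot (Nd.var_PP v).fr (T.pρ n hn), pullK_dualK, pullK_dualK,
    Nd.pK_pull hN (T.var _ hn) hS, Nd.pK_pull hN (T.var _ hn.le) hS, h2, map_sub,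
    map_mul (dualK _) (dualK _ _), dualK_dualK]
  exact (sub_add _ _ _).symm

theorem top_step (D : DG S) (hL₀ : IsCls L₀ 1) {n : ℕ} (hn : n < n₀) :
    GA.pull (T.ρ n) (gc ℂ (o₀ + (n + 1)) (T.obv (n + 1))) =
      GA.pull ((Mor.fst _ _).comp (T.π n)) (gc ℂ (o₀ + n) (T.obv n)) * gc ℂ 1 (T.l n * dualK _
        (pullK ((Mor.snd _ _).comp (T.π n)) D.om * pullK ((Mor.snd _ _).comp (T.π n)) L₀)) := by
  have h1 : IsCls (pullK ((Mor.fst _ _).comp (T.π n)) (T.obv n)) (o₀ + n) :=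
    IsCls.pull (T.ob n hn.le) _
  have h2 := (T.lcls n hn).mul1 ((D.omc.pull ((Mor.snd _ _).comp (T.π n))).mul1
    (hL₀.pull ((Mor.snd _ _).comp (T.π n)))).dual
  rw [pull_gc, pull_gc, obv_step T D hn, ← coeff_cA, cA_add, h2.cA_eq, mul_add, mul_one, map_add,
    coeff_cA, h1.gc_eq_zero (by omega), zero_add, ← mul_assoc, ← add_assoc,
    PowerSeries.coeff_succ_mul_X, PowerSeries.coeff_mul_C, coeff_cA]

theorem van_tower (D : DG S) (hL : ∀ M ∈ L, IsCls M 1) (hom : D.om ∈ L) (hL₀ : L₀ ∈ L)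
    (hv : v < o₀) (c : Bool) (n : ℕ) : n ≤ n₀ → ∀ {Y : Spc} {e : ℕ} {ι : Type}, Y.IsVar e →
      ∀ Ψ : Frame S Y ι, ∀ μ ∈ (fr T c n Ψ).Taut ℂ L, GH.push (Mor.snd _ Y)
        ((GA.pull (Mor.fst _ Y) (gc ℂ (o₀ + n) (T.obv n)) * μ) •
          fund ℂ ((T.X n).prod Y) (v + 2 * n + e)) = 0 := by
  induction n with
  | zero =>
    intro hn Y e ι hY Ψ μ _
    rw [mul_comm, mul_smul, ← GH.xf_fund (T.var 0 hn) hY, ← GH.xf_smul (T.var 0 hn) hY, gc,
      amk_fund_lt _ (by omega), map_zero, smul_zero, map_zero]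
  | succ n ih =>
    intro hn Y e ι hY Ψ μ hμ
    have hY' := Nd.var_prod hY D.var
    obtain ⟨μ', h1, h2⟩ := tower_step T D hL hom c hn hY hY' (isPr_self Y S) Ψ hμ
      (top_step T D (hL _ hL₀) hn) fun Q hl hM => CIn.twist (T.lcls n hn) hl
        (CIn.twist (D.omc.pull _) (hM _ hom) (hM _ hL₀)).dual 1
    rw [h2, ih (Nat.le_of_succ_le hn) hY' _ μ' h1, map_zero]

end one

variable {M : Bool → K0 S} {L₁ L₂ : K0 S} {v₁ v₂ n₁ n₂ o₁ o₂ : ℕ}
  (T₁ : Tower S L₁ (M false) v₁ n₁ o₁) (T₂ : Tower S L₂ (M true) v₂ n₂ o₂)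

theorem pass2 (D : DG S) (hL : ∀ M ∈ L, IsCls M 1) (hom : D.om ∈ L) {R : Subalgebra ℂ (GA ℂ S)}
    (hR : Ge S 2 ≤ R.toSubmodule) (hO : CIn R D.Om) (hLR : ∀ x ∈ L, CIn R x)
    (hM : ∀ a, CIn R (M a)) (n : ℕ) : n ≤ n₂ → ∀ {B : Spc} {e : ℕ} {ι : Type}, B.IsVar e →
      ∀ s : ι → Mor B S, ∀ μ ∈ (fr T₂ true n (fin M s)).Taut ℂ L, GH.push (Mor.snd _ B)
        (μ • fund ℂ ((T₂.X n).prod B) (v₂ + 2 * n + e)) ∈ Cl ℂ (TS R s) e := by
  induction n with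
  | zero =>
    intro hn B e ι hB s μ hμ
    obtain ⟨μ', h1, h2⟩ := tower_base T₂ D.var.proj true hB (fin M s) rfl hμ
    rw [h2]
    exact mem_Cl (fin_le D hO hLR hM hB s h1)
  | succ n ih =>
    intro hn B e ι hB s μ hμ
    have hB' := Nd.var_prod hB D.var
    obtain ⟨μ', h1, h2⟩ := tower_step1 T₂ D hL hom true hn hB hB' (isPr_self B S) _ hμ
    rw [fin_more] at h1
    obtain ⟨ν, h3, h4⟩ := ih (Nat.le_of_succ_le hn) hB' _ μ' h1
    rw [h2, h4]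
    exact elim0 D hR hB s h3

theorem isPr_map (X B S : Spc) : IsPr ((Mor.id X).map (Mor.fst B S))
    ((Mor.snd B S).comp (Mor.snd X (B.prod S))) :=
  ⟨Mor.lift ((Mor.fst _ _).comp (Mor.fst _ _))
    (Mor.lift ((Mor.snd _ _).comp (Mor.fst _ _)) (Mor.snd _ _)), by simp, by simp, by simp⟩

theorem fr_more (n : ℕ) (s : ι → Mor B S) :
    ((fr T₂ true n (fin M s)).pull ((Mor.id _).map (Mor.fst B S))).more
      ((Mor.snd B S).comp (Mor.snd _ _)) = fr T₂ true n (fin M (ext s)) := by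
  have e1 : (Mor.fst (T₂.X n) B).comp ((Mor.id _).map (Mor.fst B S)) = Mor.fst _ _ := by simp
  refine Frame.ext (funext fun a => ?_) (funext fun a => ?_) (funext fun j => ?_)
  · change pullK _ ((fr T₂ true n (fin M s)).E a) = _
    cases a with
    | true => rw [fr_E, fr_E, map_map, e1]
    | false =>
      rw [fr_E' T₂ Bool.false_ne_true, fr_E' T₂ Bool.false_ne_true]
      exact ((congrArg _ (map_snd _ _)).trans (map_snd _ _)).trans (map_snd _ _).symm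
  · change pullK _ ((fr T₂ true n (fin M s)).h a) = _
    cases a with
    | true => rw [fr_h, fr_h, ← pullK_comp (Mor.fst _ _), e1]
    | false =>
      rw [fr_h' T₂ Bool.false_ne_true, fr_h' T₂ Bool.false_ne_true]
      exact ((congrArg _ (map_one _)).trans (map_one _)).trans (map_one _).symm
  · cases j with
    | none => rfl
    | some j =>
      change ((s j).comp (Mor.snd _ B)).comp ((Mor.id _).map (Mor.fst B S)) =
        ((s j).comp (Mor.fst B S)).comp (Mor.snd _ _)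
      simp

theorem pass1 (D : DG S) (hL : ∀ M ∈ L, IsCls M 1) (hom : D.om ∈ L)
    (Q : ∀ (B : Spc) (e : ℕ) (ι : Type), (ι → Mor B S) → GH ℂ ((T₂.X n₂).prod B) → Prop)
    (h0 : ∀ B e ι s, B.IsVar e → ∀ μ ∈ (fr T₂ true n₂ (fin M s)).Taut ℂ L,
      Q B e ι s (μ • fund ℂ _ (v₂ + 2 * n₂ + e)))
    (h1 : ∀ B e ι s, B.IsVar e → ∀ x, Q (B.prod S) (e + 2) (Option ι) (ext s) x →
      Q B e ι s (GH.push ((Mor.id _).map (Mor.fst B S)) x)) (n : ℕ) :
    n ≤ n₁ → ∀ {B : Spc} {e : ℕ} {ι : Type}, B.IsVar e → ∀ s : ι → Mor B S,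
      ∀ μ ∈ (fr T₁ false n (fr T₂ true n₂ (fin M s))).Taut ℂ L, Q B e ι s (GH.push (Mor.snd _ _)
        (μ • fund ℂ ((T₁.X n).prod ((T₂.X n₂).prod B)) (v₁ + 2 * n + (v₂ + 2 * n₂ + e)))) := by
  have hX := T₂.var n₂ le_rfl
  induction n with
  | zero =>
    intro hn B e ι hB s μ hμ
    obtain ⟨μ', h2, h3⟩ := tower_base T₁ D.var.proj false (Nd.var_prod hX hB) _
      ((fr_E' T₂ Bool.false_ne_true _ _).trans (map_snd _ _)) hμ
    rw [h3]
    exact h0 B e ι s hB μ' h2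
  | succ n ih =>
    intro hn B e ι hB s μ hμ
    have hB' := Nd.var_prod hB D.var
    have hY' : ((T₂.X n₂).prod (B.prod S)).IsVar (v₂ + 2 * n₂ + e + 2) :=
      (Nd.var_prod hX hB').cast (add_assoc _ _ _).symm
    obtain ⟨μ', h2, h3⟩ := tower_step1 T₁ D hL hom false hn (Nd.var_prod hX hB)
      hY' (isPr_map _ B S) _ hμ
    rw [fr_more] at h2
    rw [h3]
    exact h1 B e ι s hB _ (ih (Nat.le_of_succ_le hn) hB' _ μ' h2)

theorem snd_map_fst (X B S : Spc) : (Mor.snd X B).comp ((Mor.id X).map (Mor.fst B S)) =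
    (Mor.fst B S).comp (Mor.snd X _) := by simp

/-- the integral over the fixed locus is tautological on the base -/
theorem pass (D : DG S) (hL : ∀ M ∈ L, IsCls M 1) (hom : D.om ∈ L) {R : Subalgebra ℂ (GA ℂ S)}
    (hR : Ge S 2 ≤ R.toSubmodule) (hO : CIn R D.Om) (hLR : ∀ x ∈ L, CIn R x)
    (hM : ∀ a, CIn R (M a)) {e : ℕ} (hB : B.IsVar e) (s : ι → Mor B S) {μ : GA ℂ _}
    (hμ : μ ∈ (fr T₁ false n₁ (fr T₂ true n₂ (fin M s))).Taut ℂ L) :
    GH.push (Mor.snd _ B) (GH.push (Mor.snd _ _) (μ • fund ℂ ((T₁.X n₁).prod ((T₂.X n₂).prod B))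
      (v₁ + 2 * n₁ + (v₂ + 2 * n₂ + e)))) ∈ Cl ℂ (TS R s) e := by
  have hX := T₂.var n₂ le_rfl
  refine pass1 T₁ T₂ D hL hom (fun B e ι s x => GH.push (Mor.snd _ B) x ∈ Cl ℂ (TS R s) e)
    (fun B e ι s hB => pass2 T₂ D hL hom hR hO hLR hM n₂ le_rfl hB s) ?_ n₁ le_rfl hB s μ hμ
  rintro B e ι s hB x ⟨ν, h1, h2⟩
  have hB' := Nd.var_prod hB D.var
  rw [← GH.push_comp (Nd.var_prod hX hB').proj (Nd.var_prod hX hB).proj hB.proj, snd_map_fst,
    GH.push_comp (Nd.var_prod hX hB').proj hB'.proj hB.proj, h2]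
  exact elim0 D hR hB s h1

/-- the integral vanishes if the second obstruction bundle is too large -/
theorem van2 (D : DG S) (hL : ∀ M ∈ L, IsCls M 1) (hom : D.om ∈ L) (hL₂ : L₂ ∈ L) (hv : v₂ < o₂)
    {e : ℕ} (hB : B.IsVar e) (s : ι → Mor B S) {μ : GA ℂ _}
    (hμ : μ ∈ (fr T₁ false n₁ (fr T₂ true n₂ (fin M s))).Taut ℂ L) :
    GH.push (Mor.snd _ B) (GA.pull (Mor.fst _ B) (gc ℂ (o₂ + n₂) (T₂.obv n₂)) •
      GH.push (Mor.snd _ _) (μ • fund ℂ ((T₁.X n₁).prod ((T₂.X n₂).prod B))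
        (v₁ + 2 * n₁ + (v₂ + 2 * n₂ + e)))) = 0 := by
  have hX := T₂.var n₂ le_rfl
  refine pass1 T₁ T₂ D hL hom (fun B e ι s x => GH.push (Mor.snd _ B)
      (GA.pull (Mor.fst _ B) (gc ℂ (o₂ + n₂) (T₂.obv n₂)) • x) = 0)
    (fun B e ι s hB μ hμ => ?_) ?_ n₁ le_rfl hB s μ hμ
  · rw [← mul_smul]
    exact van_tower T₂ D hL hom hL₂ hv true n₂ le_rfl hB _ μ hμ
  · intro B e ι s hB x hx
    have hB' := Nd.var_prod hB D.var
    have h1 := (Nd.var_prod hX hB').proj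
    have h2 := (Nd.var_prod hX hB).proj
    have e1 : (Mor.fst (T₂.X n₂) B).comp ((Mor.id _).map (Mor.fst B S)) = Mor.fst _ _ := by simp
    rw [← GH.push_proj h1 h2, ← GA.pull_comp, e1, ← GH.push_comp h1 h2 hB.proj, snd_map_fst,
      GH.push_comp h1 hB'.proj hB.proj, hx, map_zero]

end Vale.Agent.P297Z.Sh
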