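import Vale.Agent.P297Z.Sh.Asm
import Vale.Agent.P297Z.Surf.SspB

/-!
# P297: the shape of the contributions on the surface
-/

set_option linter.all false

noncomputable section

namespace Vale.Agent.P297Z.Sh

section alg

variable {S : Spc}

/-- the classes whose pairing with the family is proportional to the second component -/
def RR (𝒲 : Set (GA ℂ S × ℂ)) (h1 : ∀ p ∈ 𝒲, p.1 ∈ Ge S 1)
    (h0 : ∀ p ∈ 𝒲, GH.deg (p.1 • fund ℂ S 2) = 0) : Subalgebra ℂ (GA ℂ S) where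
  carrier := {ρ | ∃ l : ℂ, ∀ p ∈ 𝒲, GH.deg ((p.1 * ρ) • fund ℂ S 2) = l * p.2}
  add_mem' := by
    rintro a b ⟨l, hl⟩ ⟨m, hm⟩
    exact ⟨l + m, fun p hp => by rw [mul_add, add_smul, map_add, hl p hp, hm p hp, add_mul]⟩
  algebraMap_mem' c := ⟨0, fun p hp => by
    rw [mul_comm, ← Algebra.smul_def, smul_assoc, LinearMap.map_smul, h0 p hp, smul_zero,
      zero_mul]⟩
  mul_mem' := by
    rintro a b ⟨l, hl⟩ ⟨m, hm⟩
    obtain ⟨c, x, hx, rfl⟩ := exists_Ge_one a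
    obtain ⟨d, y, hy, rfl⟩ := exists_Ge_one b
    refine ⟨d * l + c * m, fun p hp => ?_⟩
    have e : p.1 * ((c • 1 + x) * (d • 1 + y)) = d • (p.1 * (c • 1 + x)) + c • (p.1 * (d • 1 + y)) +
        p.1 * (x * y) - (c * d) • p.1 := by
      simp only [Algebra.smul_def, map_mul]
      ring
    rw [e, sub_smul, add_smul, add_smul, smul_assoc, smul_assoc, smul_assoc,
      Ge_fund (by omega) (Ge_mul (h1 p hp) (Ge_mul hx hy)), map_sub, add_zero, map_add,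
      LinearMap.map_smul, LinearMap.map_smul, LinearMap.map_smul, hl p hp, hm p hp, h0 p hp]
    simp only [smul_eq_mul]
    ring

theorem Ge_le_RR {𝒲 : Set (GA ℂ S × ℂ)} (h1 : ∀ p ∈ 𝒲, p.1 ∈ Ge S 1)
    (h0 : ∀ p ∈ 𝒲, GH.deg (p.1 • fund ℂ S 2) = 0) : Ge S 2 ≤ (RR 𝒲 h1 h0).toSubmodule :=
  fun _ hx => ⟨0, fun p hp => by
    rw [Ge_fund (by omega) (Ge_mul (h1 p hp) hx), map_zero, zero_mul]⟩

theorem TT_Psi (hS : S.IsVar 2) (w : GA ℂ S) (x : GH ℂ (S.prod S)) :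
    GH.deg ((GA.pull (Mor.fst S S) w * GA.pull (Mor.snd S S) w) • x) =
      TT w (GH.deg.comp (GA.act _ w)) x := by
  have hP := (Nd.var_prod hS hS).proj
  rw [mul_comm, mul_smul, ← GH.deg_push hP hS.proj (Mor.snd S S), GH.push_proj hP hS.proj]
  rfl

end alg

open Sf

variable {K : Type} [Field K] [Algebra ℂ K] (S : Surf K) (h : S.All)

/-- what is used about the diagonal of the surface -/
def DGS : Prop := ForAll fun S => ∀ h : S.All, ∃ D : DG (S.spc h), D.om = S.lK h (-S.kap) ∧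
  gc ℂ 1 D.Om = gc ℂ 1 (S.lK h S.kap) ∧
  ∀ p z, S.Over h z p → kact _ (dK _ z) (oG _) = S.ptG h p

theorem lK_cls (D : Sf.Div S.W) : IsCls (S.lK h D) 1 := IsCls.of_bun (Sl.lb_isBun S h D)

theorem lK_mem (D : Sf.Div S.W) : S.lK h D - 1 ∈ FF (S.spc h) 1 := by
  have := neg_mem (lK_cls S h D).sub_mem
  rwa [neg_sub] at this

/-- the class of a divisor -/
def wD (D : Sf.Div S.W) : GA ℂ (S.spc h) := amk ℂ 1 (S.lK h D - 1)

theorem gc_lK (D : Sf.Div S.W) : gc ℂ 1 (S.lK h D) = -wD S h D := by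
  rw [(lK_cls S h D).gc_one, wD, ← amk_neg (lK_mem S h D), neg_sub]

theorem wD_add (D D' : Sf.Div S.W) : wD S h (D + D') = wD S h D + wD S h D' := by
  have := (lK_cls S h D).gc_mul (k := ℂ) (lK_cls S h D')
  rw [← Sl.lK_add, gc_lK, gc_lK, gc_lK, ← neg_add] at this
  exact neg_injective this

theorem wD_zero : wD S h 0 = 0 := by rw [wD, Sl.lK_zero, sub_self, amk_zero]

theorem wD_neg (D : Sf.Div S.W) : wD S h (-D) = -wD S h D := by
  rw [eq_neg_iff_add_eq_zero, ← wD_add, neg_add_cancel, wD_zero]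

theorem wD_sub (D D' : Sf.Div S.W) : wD S h (D - D') = wD S h D - wD S h D' := by
  rw [sub_eq_add_neg, wD_add, wD_neg, sub_eq_add_neg]

theorem wD_Ge (D : Sf.Div S.W) : wD S h D ∈ Ge _ 1 := amk_mem_Ge le_rfl (lK_mem S h D)

theorem deg_wD (D : Sf.Div S.W) : GH.deg (wD S h D • fund ℂ (S.spc h) 2) = 0 := by
  rw [wD, GH.deg_amk_fund (SA.isVar h) (lK_mem S h D), if_neg (by omega)]

theorem deg_wD_mul (D D' : Sf.Div S.W) :
    GH.deg ((wD S h D * wD S h D') • fund ℂ (S.spc h) 2) = inter D D' := by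
  rw [wD, wD, ← amk_mul (lK_mem S h D) (lK_mem S h D'),
    GH.deg_amk_fund (SA.isVar h) (Gd.FF_mul (lK_mem S h D) (lK_mem S h D')), if_pos rfl,
    Sl.chiG_inter]

theorem deg_sum {ι : Type} [Fintype ι] (a : ι → ℂ) (u : ι → Sf.Div S.W) (y : GA ℂ (S.spc h)) :
    GH.deg (((∑ i, a i • wD S h (u i)) * y) • fund ℂ (S.spc h) 2) =
      ∑ i, a i * GH.deg ((wD S h (u i) * y) • fund ℂ (S.spc h) 2) := by
  rw [Finset.sum_mul, Finset.sum_smul, map_sum]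
  exact Finset.sum_congr rfl fun i _ => by
    rw [smul_mul_assoc, smul_assoc, LinearMap.map_smul, smul_eq_mul]

theorem deg_sum' {ι : Type} [Fintype ι] (a : ι → ℂ) (u : ι → Sf.Div S.W) (D : Sf.Div S.W) :
    GH.deg (((∑ i, a i • wD S h (u i)) * wD S h D) • fund ℂ (S.spc h) 2) =
      ∑ i, a i * inter (u i) D := by
  simp only [deg_sum, deg_wD_mul]

/-- the family of the test classes -/
def Fm (lam D₁ D₂ : Sf.Div S.W) : Set (GA ℂ (S.spc h) × ℂ) :=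
  {p | p.1 ∈ Ge _ 1 ∧ GH.deg (p.1 • fund ℂ (S.spc h) 2) = 0 ∧
    GH.deg ((p.1 * wD S h S.kap) • fund ℂ (S.spc h) 2) = 0 ∧
    GH.deg ((p.1 * wD S h lam) • fund ℂ (S.spc h) 2) = 0 ∧
    GH.deg ((p.1 * wD S h (D₁ + D₂)) • fund ℂ (S.spc h) 2) = 0 ∧
    GH.deg ((p.1 * wD S h D₁) • fund ℂ (S.spc h) 2) = p.2}

theorem pt_facts (hp : ∀ p z, S.Over h z p → kact _ (dK _ z) (oG _) = S.ptG h p)
    {p q : Pt S.W} {z z' : (S.spc h).Pt} (hz : S.Over h z p) (hz' : S.Over h z' q)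
    (τ : G (S.spc h) →+ ℂ) : GH.fn0 (k := ℂ) τ (amk ℂ 2 (dK _ z - dK _ z') • fund ℂ (S.spc h) 2) =
      τ (S.ptG h p) - τ (S.ptG h q) := by
  have hS := SA.isVar h
  rw [amk_fund hS (dK_mem z z'), if_pos le_rfl,
    GH.fn0_hmk hS.fr _ (act_oG_mem hS (dK_mem z z') le_rfl), if_pos rfl, map_sub,
    AddMonoidHom.sub_apply, hp p z hz, hp q z' hz', map_sub]

theorem shape_of (hD : DGS) : SHAPE := by
  intro K _ _ S h _ lam D₁ D₂ n₁ n₂ T₁ T₂ k _ _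
  obtain ⟨D, hom, hO, hp⟩ := hD K S h
  have hS := SA.isVar h
  have f1 : ∀ p ∈ Fm S h lam D₁ D₂, p.1 ∈ Ge _ 1 := fun _ hp => hp.1
  have f0 : ∀ p ∈ Fm S h lam D₁ D₂, GH.deg (p.1 • fund ℂ (S.spc h) 2) = 0 := fun _ hp => hp.2.1
  let R := RR _ f1 f0
  have hR : Ge _ 2 ≤ R.toSubmodule := Ge_le_RR f1 f0
  have r1 : wD S h S.kap ∈ R := ⟨0, fun p hp => by rw [hp.2.2.1, zero_mul]⟩
  have r2 : wD S h lam ∈ R := ⟨0, fun p hp => by rw [hp.2.2.2.1, zero_mul]⟩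
  have r3 : wD S h (D₁ + D₂) ∈ R := ⟨0, fun p hp => by rw [hp.2.2.2.2.1, zero_mul]⟩
  have r4 : wD S h D₁ ∈ R := ⟨1, fun p hp => by rw [hp.2.2.2.2.2, one_mul]⟩
  have r5 : wD S h D₂ ∈ R := by
    have := sub_mem r3 r4
    rwa [wD_add, add_sub_cancel_left] at this
  have c : ∀ {A}, wD S h A ∈ R → CIn R (S.lK h A) := fun hA =>
    cin_of hR (by rw [gc_lK]; exact neg_mem hA)
  obtain ⟨μ, hμ, hg⟩ := gam_TS (M := fun a => cond a (S.lK h (0 - D₂)) (S.lK h (lam - D₁))) T₁ T₂ k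
    (L := {x | ∃ A, wD S h A ∈ R ∧ x = S.lK h A}) D
    (by rintro _ ⟨A, -, rfl⟩; exact lK_cls S h A)
    ⟨_, by rw [wD_neg]; exact neg_mem r1, hom⟩ ⟨_, r2, rfl⟩
    ⟨_, by rw [wD_zero]; exact zero_mem _, rfl⟩ hR
    (cin_of hR (by rw [hO, gc_lK]; exact neg_mem r1)) (by rintro _ ⟨A, hA, rfl⟩; exact c hA)
    (by
      rintro (_ | _)
      · exact c (by rw [wD_sub]; exact sub_mem r2 r4)
      · exact c (by rw [zero_sub, wD_neg]; exact neg_mem r5))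
  obtain ⟨N, M, hs⟩ := shape_TS D hR f1 (fun _ hρ => hρ) hμ
  refine ⟨N, M, fun ι _ a u h1 h2 h3 h4 => ?_⟩
  have hm : (∑ i, a i • wD S h (u i), ∑ i, a i * inter (u i) D₁) ∈ Fm S h lam D₁ D₂ := by
    refine ⟨sum_mem fun i _ => Submodule.smul_mem _ _ (wD_Ge S h _), ?_,
      (deg_sum' S h a u _).trans h2, (deg_sum' S h a u _).trans h3, (deg_sum' S h a u _).trans h4,
      deg_sum' S h a u _⟩
    rw [Finset.sum_smul, map_sum]
    exact Finset.sum_eq_zero fun i _ => by rw [smul_assoc, LinearMap.map_smul, deg_wD, smul_zero]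
  obtain ⟨s1, s2⟩ := hs _ hm (by
    rw [deg_sum, ← h1]
    refine Finset.sum_congr rfl fun i _ => ?_
    rw [mul_comm (wD S h (u i)), deg_sum, Finset.mul_sum]
    refine Finset.sum_congr rfl fun j _ => ?_
    rw [mul_comm (wD S h (u j)), deg_wD_mul, mul_assoc])
  refine ⟨fun τ p q z z' hz hz' => ?_, fun u' g1 g2 g3 g4 => ?_⟩
  · rw [GamF_eq T₁ T₂ hS a (fun i => lK_mem S h (u i)) _ (kill_Phi hS τ z z'), fn_Phi hS,
      ← pt_facts S h hp hz hz' τ]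
    refine (hg _ (TT _ (GH.fn0 τ))).trans (s1 _ (amk_mem_Ge le_rfl (dK_mem z z')) ?_ _)
    refine (pt_facts S h hp hz hz' _).trans ?_
    change ((chiG _ (S.ptG h p) : ℤ) : ℂ) - (chiG _ (S.ptG h q) : ℤ) = 0
    rw [Sl.chiG_ptG, Sl.chiG_ptG, sub_self]
  · rw [GamF_eq T₁ T₂ hS a (fun i => lK_mem S h (u i)) _ (kill_Psi hS (lK_mem S h u')),
      fn_Psi hS (lK_mem S h u'), TT_Psi hS, ← deg_wD_mul S h u' u']
    refine (hg _ _).trans (s2 (wD S h u', inter u' D₁) ⟨wD_Ge S h _, deg_wD S h _, ?_, ?_, ?_,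
      deg_wD_mul S h _ _⟩ ?_)
    · rw [deg_wD_mul, g1, Int.cast_zero]
    · rw [deg_wD_mul, g2, Int.cast_zero]
    · rw [deg_wD_mul, g3, Int.cast_zero]
    · rw [mul_comm, deg_sum', g4]

include h in
theorem one_le_h0 {D : Sf.Div S.W} (hD : H0 D ≠ ⊥) : 1 ≤ h0 D := by
  have : FiniteDimensional ℂ (H0 D) := by
    have := (h.fg D).1 0
    rwa [M, zero_smul, add_zero] at this
  have h1 : Module.finrank ℂ (H0 D) ≠ 0 := fun e => hD (Submodule.finrank_eq_zero.1 e)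
  rw [h0]
  omega

theorem van_of (hD : DGS) : VAN := by
  intro K _ _ S h _ lam D₁ D₂ n₁ n₂ T₁ T₂ k e₁ e₂ hv
  obtain ⟨D, -, -, -⟩ := hD K S h
  have hS := SA.isVar h
  have p₁ := one_le_h0 S h e₁
  have p₂ := one_le_h0 S h e₂
  have hg := gam_zero (M := fun a => cond a (S.lK h (0 - D₂)) (S.lK h (lam - D₁))) T₁ T₂ k
    (L := {x | IsCls x 1}) D (fun _ hx => hx) D.omc (lK_cls S h _) (lK_cls S h _)
    (hv.imp (fun _ => by omega) fun _ => by omega)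
  refine fun ι _ a u _ _ _ _ => ⟨fun τ p q z z' _ _ => ?_, fun u' _ _ _ _ => ?_⟩
  · rw [GamF_eq T₁ T₂ hS a (fun i => lK_mem S h (u i)) _ (kill_Phi hS τ z z'), hg, map_zero,
      zero_mul, mul_zero]
  · rw [GamF_eq T₁ T₂ hS a (fun i => lK_mem S h (u i)) _ (kill_Psi hS (lK_mem S h u')), hg,
      map_zero, zero_mul, zero_mul, add_zero, mul_zero]

end Vale.Agent.P297Z.Sh

namespace Vale.Agent.P297Z.Sf

theorem kill : KILL := fun _ _ _ S h g hg =>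
  ⟨fun τ z z' => Sh.kill_Phi (SA.isVar h) τ z z' g hg,
    fun u => Sh.kill_Psi (SA.isVar h) (Sh.lK_mem S h u) g hg⟩

end Vale.Agent.P297Z.Sf
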